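import Mathlib

/-! P040: monotone drawings of complete bipartite graphs with one class on a line. -/

namespace Vale.Agent.P040

/-- `d_r = ⌊r / 2⌋ ⌊(r - 1) / 2⌋` -/
def d (r : ℕ) : ℕ := (r / 2) * ((r - 1) / 2)

/-- `y` lies strictly between `0` and `h`. -/
def Strict (h y : ℝ) : Prop := (0 < y ∧ y < h) ∨ (h < y ∧ y < 0)

/-- A drawing of `K_{m,n}` in the plane such that the first class lies on the line `y = 0` and
every edge is monotone in the direction perpendicular to this line. The vertices of the first
class are the points `(r i, 0)`, those of the second class the points `(x j, h j)`, `h j ≠ 0`; the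
edge `i j` is the curve of the points `(f i j y, y)`, `y` between `0` and `h j`; its interior
avoids all vertices. -/
structure Drawing (m n : ℕ) where
  r : Fin m → ℝ
  x : Fin n → ℝ
  h : Fin n → ℝ
  f : Fin m → Fin n → ℝ → ℝ
  r_injective : Function.Injective r
  b_injective : Function.Injective (fun j => (x j, h j))
  h_ne : ∀ j, h j ≠ 0
  cont : ∀ i j, ContinuousOn (f i j) (Set.uIcc 0 (h j))
  f_zero : ∀ i j, f i j 0 = r i
  f_h : ∀ i j, f i j (h j) = x j
  avoid : ∀ i j k y, Strict (h j) y → (f i j y, y) ≠ (x k, h k)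

/-- The edges `e` and `e'` have a common interior point. -/
def Drawing.Cross {m n : ℕ} (D : Drawing m n) (e e' : Fin m × Fin n) : Prop :=
  ∃ y, Strict (D.h e.2) y ∧ Strict (D.h e'.2) y ∧ D.f e.1 e.2 y = D.f e'.1 e'.2 y

/-- The crossing pairs of independent edges; every unordered pair is listed once. -/
def Drawing.crossings {m n : ℕ} (D : Drawing m n) :
    Set ((Fin m × Fin n) × (Fin m × Fin n)) :=
  {p | p.1.1 ≠ p.2.1 ∧ p.1.2 < p.2.2 ∧ D.Cross p.1 p.2}

end Vale.Agent.P040
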