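import Mathlib
import Vale.Agent.P371.Brouwer

/-! P040: two tripods in a half-plane, without any condition on legs with the same foot. -/

open Set Complex

namespace Vale.Agent.P040

theorem zero_of_id_outside {G : ℂ → ℂ} (hG : Continuous G) {R0 : ℝ}
    (h : ∀ z : ℂ, R0 < ‖z‖ → G z = z) : ∃ z, G z = 0 := by
  obtain ⟨R1, hR1⟩ := (isCompact_closedBall (0 : ℂ) R0).exists_bound_of_continuousOn
    (f := fun z => z - G z) (continuous_id.sub hG).continuousOn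
  set R := max R1 0 with hR
  have hb : ∀ z, ‖z - G z‖ ≤ R := by
    intro z
    by_cases hz : ‖z‖ ≤ R0
    · exact (hR1 z (by simpa using hz)).trans (le_max_left _ _)
    · rw [h z (not_le.1 hz), sub_self, norm_zero]
      exact le_max_right _ _
  obtain ⟨z, -, hz⟩ := Vale.Agent.P371.brouwer (isCompact_closedBall (0 : ℂ) R)
    (convex_closedBall (0 : ℂ) R) ⟨0, by simp [hR]⟩ (f := fun z => z - G z)
    (continuous_id.sub hG).continuousOn (fun z _ => by simpa using hb z)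
  refine ⟨z, ?_⟩
  have h1 : z - G z = z := hz
  have h2 : G z = z - (z - G z) := by ring
  rw [h2, h1, sub_self]

/-- clamp to `[0, 1]` -/
noncomputable def cl (x : ℝ) : ℝ := max 0 (min x 1)

theorem cl_cont : Continuous cl := by unfold cl; fun_prop

theorem cl_nonneg (x : ℝ) : 0 ≤ cl x := le_max_left _ _

theorem cl_le (x : ℝ) : cl x ≤ 1 := max_le zero_le_one (min_le_right _ _)

theorem cl_zero {x : ℝ} (h : x ≤ 0) : cl x = 0 := by
  unfold cl
  exact max_eq_left ((min_le_left _ _).trans h)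

theorem cl_one {x : ℝ} (h : 1 ≤ x) : cl x = 1 := by
  unfold cl
  rw [min_eq_right h]
  exact max_eq_right zero_le_one

theorem lt_of_cl_ne {x : ℝ} (h : cl x ≠ 1) : x < 1 := by
  by_contra h'
  exact h (cl_one (not_lt.1 h'))

/-- first combination lemma: one coordinate has the same sign in all three vectors -/
theorem comb_a {w1 w2 w3 x y z : ℝ} (h1 : 0 ≤ w1) (h2 : 0 ≤ w2) (h3 : 0 ≤ w3)
    (hw : w1 + w2 + w3 = 1) (hx : 0 < x) (hy : 0 < y) (hz : 0 < z)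
    (h : w1 * x + w2 * y + w3 * z = 0) : False := by
  have a1 : 0 ≤ w1 * x := mul_nonneg h1 hx.le
  have a2 : 0 ≤ w2 * y := mul_nonneg h2 hy.le
  have a3 : 0 ≤ w3 * z := mul_nonneg h3 hz.le
  have b1 : w1 * x = 0 := by linarith
  have b2 : w2 * y = 0 := by linarith
  have b3 : w3 * z = 0 := by linarith
  have c1 : w1 = 0 := (mul_eq_zero.1 b1).resolve_right hx.ne'
  have c2 : w2 = 0 := (mul_eq_zero.1 b2).resolve_right hy.ne'
  have c3 : w3 = 0 := (mul_eq_zero.1 b3).resolve_right hz.ne'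
  linarith

theorem comb_a' {w1 w2 w3 x y z : ℝ} (h1 : 0 ≤ w1) (h2 : 0 ≤ w2) (h3 : 0 ≤ w3)
    (hw : w1 + w2 + w3 = 1) (hx : x < 0) (hy : y < 0) (hz : z < 0)
    (h : w1 * x + w2 * y + w3 * z = 0) : False :=
  comb_a h1 h2 h3 hw (neg_pos.2 hx) (neg_pos.2 hy) (neg_pos.2 hz) (by linarith)

/-- second combination lemma -/
theorem comb_b {w1 w2 w3 p1 p2 k1 k2 x y : ℝ} (h1 : 0 ≤ w1) (h2 : 0 ≤ w2) (h3 : 0 ≤ w3)
    (hw : w1 + w2 + w3 = 1) (h13 : w1 * w3 = 0) (hp : p2 ≠ 0) (hk2 : k2 = 0)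
    (hk : 0 < k1) (hx : 0 < x) (e1 : w1 * p1 + w2 * k1 + w3 * x = 0)
    (e2 : w1 * p2 + w2 * k2 + w3 * y = 0) : False := by
  have key : w1 = 0 := by
    rcases mul_eq_zero.1 h13 with h | h
    · exact h
    · rw [h, hk2, mul_zero, zero_mul, add_zero, add_zero] at e2
      exact (mul_eq_zero.1 e2).resolve_right hp
  rw [key] at e1 hw
  have a2 : 0 ≤ w2 * k1 := mul_nonneg h2 hk.le
  have a3 : 0 ≤ w3 * x := mul_nonneg h3 hx.le
  have b2 : w2 * k1 = 0 := by linarith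
  have b3 : w3 * x = 0 := by linarith
  have c2 : w2 = 0 := (mul_eq_zero.1 b2).resolve_right hk.ne'
  have c3 : w3 = 0 := (mul_eq_zero.1 b3).resolve_right hx.ne'
  linarith

theorem comb_b' {w1 w2 w3 p1 p2 k1 k2 x y : ℝ} (h1 : 0 ≤ w1) (h2 : 0 ≤ w2) (h3 : 0 ≤ w3)
    (hw : w1 + w2 + w3 = 1) (h13 : w1 * w3 = 0) (hp : p2 ≠ 0) (hk2 : k2 = 0)
    (hk : k1 < 0) (hx : x < 0) (e1 : w1 * p1 + w2 * k1 + w3 * x = 0)
    (e2 : w1 * p2 + w2 * k2 + w3 * y = 0) : False :=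
  comb_b (p1 := -p1) (p2 := p2) (k1 := -k1) (x := -x) (y := y) h1 h2 h3 hw h13 hp hk2
    (neg_pos.2 hk) (neg_pos.2 hx) (by linarith) e2

end Vale.Agent.P040
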