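import Vale.Agent.P040.RotDefs

/-! P040: two points and three points. -/

namespace Vale.Agent.P040

theorem det_cyc (a b c : ℝ × ℝ) : det a b c = det b c a := by unfold det; ring

theorem det_swap (a b c : ℝ × ℝ) : det a c b = - det a b c := by unfold det; ring

theorem cross_seg (b b' i j : ℝ × ℝ) (h1 : 0 < det b i j * det b b' i)
    (h2 : 0 < det b' i j * det b b' j) :
    (openSegment ℝ i b ∩ openSegment ℝ j b').Nonempty := by
  set A := det b i j with hA
  set B := det b' i j with hB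
  set C := det b b' i with hC
  set C' := det b b' j with hC'
  have hE : A + C = B + C' := by
    rw [hA, hB, hC, hC']; unfold det; ring
  have hs : 0 < A / (A + C) ∧ A / (A + C) < 1 := by
    rcases lt_or_gt_of_ne (show A ≠ 0 from fun h => by rw [h] at h1; simp at h1) with h | h
    · have hc : C < 0 := by nlinarith
      constructor
      · exact div_pos_of_neg_of_neg h (by linarith)
      · rw [div_lt_one_of_neg (by linarith)]; linarith
    · have hc : 0 < C := by nlinarith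
      constructor
      · positivity
      · rw [div_lt_one (by linarith)]; linarith
  have ht : 0 < B / (A + C) ∧ B / (A + C) < 1 := by
    rw [hE]
    rcases lt_or_gt_of_ne (show B ≠ 0 from fun h => by rw [h] at h2; simp at h2) with h | h
    · have hc : C' < 0 := by nlinarith
      constructor
      · exact div_pos_of_neg_of_neg h (by linarith)
      · rw [div_lt_one_of_neg (by linarith)]; linarith
    · have hc : 0 < C' := by nlinarith
      constructor
      · positivity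
      · rw [div_lt_one (by linarith)]; linarith
  have hne : A + C ≠ 0 := by
    intro h0
    rw [h0, div_zero] at hs
    exact lt_irrefl _ hs.1
  refine ⟨(1 - B / (A + C)) • i + (B / (A + C)) • b, ?_, ?_⟩
  · exact ⟨1 - B / (A + C), B / (A + C), by linarith [ht.2], ht.1, by ring, rfl⟩
  · refine ⟨1 - A / (A + C), A / (A + C), by linarith [hs.2], hs.1, by ring, ?_⟩
    have e1 : (A + C) * (j.1 - i.1) + A * (b'.1 - j.1) - B * (b.1 - i.1) = 0 := by
      rw [hA, hB, hC]; unfold det; ring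
    have e2 : (A + C) * (j.2 - i.2) + A * (b'.2 - j.2) - B * (b.2 - i.2) = 0 := by
      rw [hA, hB, hC]; unfold det; ring
    ext
    · simp only [Prod.fst_add, Prod.smul_fst, smul_eq_mul]
      field_simp
      linarith
    · simp only [Prod.snd_add, Prod.smul_snd, smul_eq_mul]
      field_simp
      linarith

theorem bool_key : ∀ a1 a2 a3 b1 b2 b3 c1 c2 c3 : Bool,
    ¬ (a2 = c1 ∧ a3 = c2 ∧ a1 = c3) → ¬ (a2 ≠ c1 ∧ a3 ≠ c2 ∧ a1 ≠ c3) →
    ¬ (b2 = c1 ∧ b3 = c2 ∧ b1 = c3) → ¬ (b2 ≠ c1 ∧ b3 ≠ c2 ∧ b1 ≠ c3) →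
    (((a1 && a2) || (a2 && a3) || (a3 && a1)) = ((b1 && b2) || (b2 && b3) || (b3 && b1))) →
    ((a1 = c1 ∧ b1 = c2) ∨ (a1 ≠ c2 ∧ b1 ≠ c1)) ∨
    ((a2 = c2 ∧ b2 = c3) ∨ (a2 ≠ c3 ∧ b2 ≠ c2)) ∨
    ((a3 = c3 ∧ b3 = c1) ∨ (a3 ≠ c1 ∧ b3 ≠ c3)) := by
  intro a1 a2 a3 b1 b2 b3 c1 c2 c3
  cases c1 <;> cases c2 <;> cases c3 <;> cases a1 <;> cases a2 <;> cases a3 <;>
    cases b1 <;> cases b2 <;> cases b3 <;> simp

theorem mul_pos_iff_dec {x y : ℝ} (hx : x ≠ 0) (hy : y ≠ 0) :
    0 < x * y ↔ decide (0 < x) = decide (0 < y) := by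
  rcases lt_or_gt_of_ne hx with h | h <;> rcases lt_or_gt_of_ne hy with h' | h'
  · simp [not_lt.2 h.le, not_lt.2 h'.le, mul_pos_of_neg_of_neg h h']
  · simp [not_lt.2 h.le, h', not_lt.2 (mul_neg_of_neg_of_pos h h').le]
  · simp [h, not_lt.2 h'.le, not_lt.2 (mul_neg_of_pos_of_neg h h').le]
  · simp [h, h', mul_pos h h']

theorem mul_neg_iff_dec {x y : ℝ} (hx : x ≠ 0) (hy : y ≠ 0) :
    x * y < 0 ↔ decide (0 < x) ≠ decide (0 < y) := by
  have h := mul_pos_iff_dec hx hy
  have hne : x * y ≠ 0 := mul_ne_zero hx hy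
  constructor
  · intro h1 h2
    exact absurd (h.2 h2) (not_lt.2 h1.le)
  · intro h1
    exact lt_of_le_of_ne (not_lt.1 fun h2 => h1 (h.1 h2)) hne

theorem rel_dec {x1 x2 x3 y1 y2 y3 : ℝ} (h1 : x1 ≠ 0) (h2 : x2 ≠ 0) (h3 : x3 ≠ 0) (k1 : y1 ≠ 0)
    (k2 : y2 ≠ 0) (k3 : y3 ≠ 0) (h : y1 * x2 + y2 * x3 + y3 * x1 = 0) :
    ¬ (decide (0 < x2) = decide (0 < y1) ∧ decide (0 < x3) = decide (0 < y2) ∧
      decide (0 < x1) = decide (0 < y3)) ∧
    ¬ (decide (0 < x2) ≠ decide (0 < y1) ∧ decide (0 < x3) ≠ decide (0 < y2) ∧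
      decide (0 < x1) ≠ decide (0 < y3)) := by
  rw [← mul_pos_iff_dec h2 k1, ← mul_pos_iff_dec h3 k2, ← mul_pos_iff_dec h1 k3,
    ← mul_neg_iff_dec h2 k1, ← mul_neg_iff_dec h3 k2, ← mul_neg_iff_dec h1 k3]
  constructor
  · rintro ⟨a, b, c⟩; linarith
  · rintro ⟨a, b, c⟩; linarith

/-- If `b` and `b'` see `i, j, k` in the same cyclic order, two independent edges cross. -/
theorem five (b b' i j k : ℝ × ℝ) (a1 : det b i j ≠ 0) (a2 : det b j k ≠ 0) (a3 : det b k i ≠ 0)
    (b1 : det b' i j ≠ 0) (b2 : det b' j k ≠ 0) (b3 : det b' k i ≠ 0) (c1 : det b b' i ≠ 0)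
    (c2 : det b b' j ≠ 0) (c3 : det b b' k ≠ 0) (h : Ccw b i j k ↔ Ccw b' i j k) :
    ((openSegment ℝ i b ∩ openSegment ℝ j b').Nonempty ∨
      (openSegment ℝ j b ∩ openSegment ℝ i b').Nonempty) ∨
    ((openSegment ℝ j b ∩ openSegment ℝ k b').Nonempty ∨
      (openSegment ℝ k b ∩ openSegment ℝ j b').Nonempty) ∨
    ((openSegment ℝ k b ∩ openSegment ℝ i b').Nonempty ∨
      (openSegment ℝ i b ∩ openSegment ℝ k b').Nonempty) := by
  have hA : det b b' i * det b j k + det b b' j * det b k i + det b b' k * det b i j = 0 := by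
    unfold det; ring
  have hB : det b b' i * det b' j k + det b b' j * det b' k i + det b b' k * det b' i j = 0 := by
    unfold det; ring
  obtain ⟨r1, r2⟩ := rel_dec a1 a2 a3 c1 c2 c3 hA
  obtain ⟨r3, r4⟩ := rel_dec b1 b2 b3 c1 c2 c3 hB
  have hmaj : ((decide (0 < det b i j) && decide (0 < det b j k)) ||
      (decide (0 < det b j k) && decide (0 < det b k i)) ||
      (decide (0 < det b k i) && decide (0 < det b i j))) =
      ((decide (0 < det b' i j) && decide (0 < det b' j k)) ||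
      (decide (0 < det b' j k) && decide (0 < det b' k i)) ||
      (decide (0 < det b' k i) && decide (0 < det b' i j))) := by
    unfold Ccw at h
    rw [Bool.eq_iff_iff]
    simp only [Bool.or_eq_true, Bool.and_eq_true, decide_eq_true_eq, or_assoc]
    exact h
  have key := bool_key _ _ _ _ _ _ _ _ _ r1 r2 r3 r4 hmaj
  rw [← mul_pos_iff_dec a1 c1, ← mul_pos_iff_dec b1 c2, ← mul_neg_iff_dec a1 c2,
    ← mul_neg_iff_dec b1 c1, ← mul_pos_iff_dec a2 c2, ← mul_pos_iff_dec b2 c3,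
    ← mul_neg_iff_dec a2 c3, ← mul_neg_iff_dec b2 c2, ← mul_pos_iff_dec a3 c3,
    ← mul_pos_iff_dec b3 c1, ← mul_neg_iff_dec a3 c1, ← mul_neg_iff_dec b3 c3] at key
  have pr : ∀ u v : ℝ × ℝ, ((0 < det b u v * det b b' u ∧ 0 < det b' u v * det b b' v) ∨
      (det b u v * det b b' v < 0 ∧ det b' u v * det b b' u < 0)) →
      ((openSegment ℝ u b ∩ openSegment ℝ v b').Nonempty ∨
        (openSegment ℝ v b ∩ openSegment ℝ u b').Nonempty) := by
    rintro u v (⟨x, y⟩ | ⟨x, y⟩)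
    · exact Or.inl (cross_seg b b' u v x y)
    · refine Or.inr (cross_seg b b' v u ?_ ?_)
      · rw [det_swap b u v]; linarith
      · rw [det_swap b' u v]; linarith
  rcases key with h' | h' | h'
  · exact Or.inl (pr i j h')
  · exact Or.inr (Or.inl (pr j k h'))
  · exact Or.inr (Or.inr (pr k i h'))

end Vale.Agent.P040
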