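import Mathlib

/-!
# P040, row [LP]: weights on pairs with four classes
-/

open Finset

namespace Vale.Agent.P040

namespace LP

theorem caseA {a b d e D W12 W13 W14 W23 W24 W34 : ℝ} (_h0 : 0 ≤ a) (hab : a ≤ b) (hbd : b ≤ d)
    (he0 : 0 < e) (h : b + d ≤ e) (p14 : 0 ≤ W14) (p24 : 0 ≤ W24) (p34 : 0 ≤ W34)
    (t124 : D * (a * b * e) ≤ e * W12 + a * W24 + b * W14)
    (t134 : D * (a * d * e) ≤ e * W13 + a * W34 + d * W14)
    (t234 : D * (b * d * e) ≤ e * W23 + b * W34 + d * W24) :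
    D * (a * b + a * d + b * d) ≤ W12 + W13 + W14 + W23 + W24 + W34 := by
  have h1 : (b + d) * W14 ≤ e * W14 := mul_le_mul_of_nonneg_right h p14
  have h2 : (a + d) * W24 ≤ e * W24 := mul_le_mul_of_nonneg_right (by linarith) p24
  have h3 : (a + b) * W34 ≤ e * W34 := mul_le_mul_of_nonneg_right (by linarith) p34
  have h4 : (D * (a * b + a * d + b * d)) * e ≤ (W12 + W13 + W14 + W23 + W24 + W34) * e := by
    linarith
  exact le_of_mul_le_mul_right h4 he0

theorem caseB {a b d e D W12 W13 W14 W23 W24 W34 : ℝ} (_h0 : 0 ≤ a) (hab : a ≤ b) (hbd : b ≤ d)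
    (hde : d ≤ e) (h : e < b + d) (p24 : 0 ≤ W24) (p34 : 0 ≤ W34)
    (t123 : D * (a * b * d) ≤ d * W12 + a * W23 + b * W13)
    (t124 : D * (a * b * e) ≤ e * W12 + a * W24 + b * W14)
    (t134 : D * (a * d * e) ≤ e * W13 + a * W34 + d * W14)
    (t234 : D * (b * d * e) ≤ e * W23 + b * W34 + d * W24) :
    D * (a * e + b * d) ≤ W12 + W13 + W14 + W23 + W24 + W34 := by
  have hb : 0 < b := by linarith
  have hd : 0 < d := by linarith
  have he : 0 < e := by linarith
  have m1 : 0 ≤ e * (b + d - e) := mul_nonneg he.le (by linarith)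
  have m2 : 0 ≤ d * (b + e - d) := mul_nonneg hd.le (by linarith)
  have m3 : 0 ≤ b * (d + e - b) := mul_nonneg hb.le (by linarith)
  have m4 : 0 ≤ 2 * b * d - a * (b + d - e) := by
    have h5 : a * (b + d - e) ≤ b * d := mul_le_mul hab (by linarith) (by linarith) hb.le
    have h6 : 0 ≤ b * d := by positivity
    linarith
  have g1 := mul_le_mul_of_nonneg_left t123 m1
  have g2 := mul_le_mul_of_nonneg_left t124 m2
  have g3 := mul_le_mul_of_nonneg_left t134 m3
  have g4 := mul_le_mul_of_nonneg_left t234 m4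
  have g5 : 0 ≤ 2 * d * (b - a) * (e - d) * W24 := by
    have h5 : 0 ≤ b - a := by linarith
    have h6 : 0 ≤ e - d := by linarith
    positivity
  have g6 : 0 ≤ 2 * b * (d - a) * (e - b) * W34 := by
    have h5 : 0 ≤ d - a := by linarith
    have h6 : 0 ≤ e - b := by linarith
    positivity
  have id1 : 2 * b * d * e * (W12 + W13 + W14 + W23 + W24 + W34) =
      e * (b + d - e) * (d * W12 + a * W23 + b * W13) +
      d * (b + e - d) * (e * W12 + a * W24 + b * W14) +
      b * (d + e - b) * (e * W13 + a * W34 + d * W14) +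
      (2 * b * d - a * (b + d - e)) * (e * W23 + b * W34 + d * W24) +
      2 * d * (b - a) * (e - d) * W24 + 2 * b * (d - a) * (e - b) * W34 := by ring
  have id2 : 2 * b * d * e * (D * (a * e + b * d)) =
      e * (b + d - e) * (D * (a * b * d)) + d * (b + e - d) * (D * (a * b * e)) +
      b * (d + e - b) * (D * (a * d * e)) +
      (2 * b * d - a * (b + d - e)) * (D * (b * d * e)) := by ring
  have hpos : 0 < 2 * b * d * e := by positivity
  have : 2 * b * d * e * (D * (a * e + b * d)) ≤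
      2 * b * d * e * (W12 + W13 + W14 + W23 + W24 + W34) := by
    rw [id1, id2]
    linarith
  exact le_of_mul_le_mul_left this hpos

theorem bal (s t : ℕ) : 2 * ((s + t) / 2 * ((s + t - 1) / 2)) + (s + t) ≤ s ^ 2 + t ^ 2 := by
  rcases Nat.even_or_odd' (s + t) with ⟨k, hk | hk⟩
  · rcases Nat.eq_zero_or_pos k with h0 | h0
    · subst h0
      have hs : s = 0 := by omega
      have ht : t = 0 := by omega
      subst hs ht
      simp
    · have e1 : (s + t) / 2 = k := by omega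
      have e2 : (s + t - 1) / 2 = k - 1 := by omega
      rw [e1, e2, hk]
      obtain ⟨j, rfl⟩ : ∃ j, k = j + 1 := ⟨k - 1, by omega⟩
      have e3 : t = 2 * (j + 1) - s := by omega
      simp only [Nat.add_sub_cancel]
      zify at hk ⊢
      have ht : (t : ℤ) = 2 * (j + 1) - s := by linarith
      rw [ht]
      nlinarith [sq_nonneg ((s : ℤ) - (j + 1))]
  · have e1 : (s + t) / 2 = k := by omega
    have e2 : (s + t - 1) / 2 = k := by omega
    rw [e1, e2, hk]
    zify at hk ⊢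
    have ht : (t : ℤ) = 2 * k + 1 - s := by linarith
    rw [ht]
    have h5 : 0 ≤ ((s : ℤ) - k) * ((s : ℤ) - k - 1) := by
      rcases le_or_gt (s : ℤ) k with h | h
      · exact mul_nonneg_of_nonpos_of_nonpos (by linarith) (by linarith)
      · exact mul_nonneg (by linarith) (by linarith)
    nlinarith

/-- the number of elements of the class `i` -/
def sz {n : ℕ} (c : Fin n → Fin 4) (i : Fin 4) : ℕ := #{u | c u = i}

/-- the total weight between two classes -/
def W {n : ℕ} (c : Fin n → Fin 4) (x : Fin n → Fin n → ℝ) (i j : Fin 4) : ℝ :=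
  ∑ u with c u = i, ∑ v with c v = j, x u v

theorem total {n : ℕ} (c : Fin n → Fin 4) (x : Fin n → Fin n → ℝ) :
    ∑ u, ∑ v, x u v = ∑ i : Fin 4, ∑ j : Fin 4, W c x i j := by
  have h1 := sum_fiberwise (univ : Finset (Fin n)) c (fun u => ∑ v, x u v)
  rw [← h1]
  refine sum_congr rfl (fun i _ => ?_)
  unfold W
  symm
  rw [sum_comm]
  refine sum_congr rfl (fun u _ => ?_)
  exact sum_fiberwise (univ : Finset (Fin n)) c (fun v => x u v)

theorem W_symm {n : ℕ} (c : Fin n → Fin 4) {x : Fin n → Fin n → ℝ} (hs : ∀ u v, x u v = x v u)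
    (i j : Fin 4) : W c x i j = W c x j i := by
  unfold W
  rw [sum_comm]
  exact sum_congr rfl (fun u _ => sum_congr rfl (fun v _ => hs v u))

theorem W_nonneg {n : ℕ} (c : Fin n → Fin 4) {x : Fin n → Fin n → ℝ} (hx : ∀ u v, 0 ≤ x u v)
    (i j : Fin 4) : 0 ≤ W c x i j :=
  sum_nonneg fun u _ => sum_nonneg fun v _ => hx u v

theorem triple {n : ℕ} (c : Fin n → Fin 4) {x : Fin n → Fin n → ℝ} {D : ℝ}
    (h3 : ∀ a b e, a ≠ b → b ≠ e → a ≠ e → D ≤ x a b + x b e + x a e)
    {i j k : Fin 4} (hij : i ≠ j) (hjk : j ≠ k) (hik : i ≠ k) :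
    D * ((sz c i : ℝ) * sz c j * sz c k) ≤
      sz c k * W c x i j + sz c i * W c x j k + sz c j * W c x i k := by
  have h1 : ∑ u with c u = i, ∑ v with c v = j, ∑ t with c t = k, D ≤
      ∑ u with c u = i, ∑ v with c v = j, ∑ t with c t = k, (x u v + x v t + x u t) := by
    refine sum_le_sum fun u hu => sum_le_sum fun v hv => sum_le_sum fun t ht => ?_
    simp only [mem_filter, mem_univ, true_and] at hu hv ht
    apply h3
    · intro h; exact hij (by rw [← hu, ← hv, h])
    · intro h; exact hjk (by rw [← hv, ← ht, h])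
    · intro h; exact hik (by rw [← hu, ← ht, h])
  have h2 : ∑ u with c u = i, ∑ v with c v = j, ∑ t with c t = k, D =
      D * ((sz c i : ℝ) * sz c j * sz c k) := by
    simp only [sum_const, nsmul_eq_mul, sz]
    ring
  have h4 : ∑ u with c u = i, ∑ v with c v = j, ∑ t with c t = k, (x u v + x v t + x u t) =
      sz c k * W c x i j + sz c i * W c x j k + sz c j * W c x i k := by
    simp only [sum_add_distrib]
    have g1 : ∑ u with c u = i, ∑ v with c v = j, ∑ t with c t = k, x u v =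
        sz c k * W c x i j := by
      simp only [sum_const, nsmul_eq_mul, sz, W, mul_sum]
    have g2 : ∑ u with c u = i, ∑ v with c v = j, ∑ t with c t = k, x v t =
        sz c i * W c x j k := by
      simp only [sum_const, nsmul_eq_mul, sz, W]
    have g3 : ∑ u with c u = i, ∑ v with c v = j, ∑ t with c t = k, x u t =
        sz c j * W c x i k := by
      simp only [sum_const, nsmul_eq_mul, sz, W, mul_sum]
    rw [g1, g2, g3]
  rw [h2, h4] at h1
  exact h1

theorem diag {n : ℕ} (c : Fin n → Fin 4) {x : Fin n → Fin n → ℝ} {D : ℝ}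
    (hx : ∀ u, x u u = 0) (h2 : ∀ a b, a ≠ b → c a = c b → D ≤ x a b) (i : Fin 4) :
    D * ((sz c i : ℝ) ^ 2 - sz c i) ≤ W c x i i := by
  have h1 : ∑ u with c u = i, ∑ v with c v = i, (if u = v then 0 else D) ≤ W c x i i := by
    refine sum_le_sum fun u hu => sum_le_sum fun v hv => ?_
    simp only [mem_filter, mem_univ, true_and] at hu hv
    by_cases h : u = v
    · rw [if_pos h, h, hx]
    · rw [if_neg h]
      exact h2 u v h (by rw [hu, hv])
  refine le_trans (le_of_eq ?_) h1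
  have h3 : ∀ u ∈ univ.filter (fun u => c u = i),
      ∑ v with c v = i, (if u = v then 0 else D) = D * ((sz c i : ℝ) - 1) := by
    intro u hu
    have h4 : ∑ v with c v = i, (if u = v then 0 else D) =
        ∑ v with c v = i, (D - if u = v then D else 0) := by
      refine sum_congr rfl fun v _ => ?_
      split_ifs <;> ring
    rw [h4, sum_sub_distrib, sum_const, sum_ite_eq, if_pos hu, nsmul_eq_mul]
    simp only [sz]
    ring
  rw [sum_congr rfl h3, sum_const, nsmul_eq_mul]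
  simp only [sz]
  ring

theorem sz_total {n : ℕ} (c : Fin n → Fin 4) : sz c 0 + sz c 1 + sz c 2 + sz c 3 = n := by
  have h1 := card_eq_sum_card_fiberwise (s := (univ : Finset (Fin n))) (t := (univ : Finset (Fin 4)))
    (f := c) (fun u _ => mem_univ _)
  rw [card_univ, Fintype.card_fin, Fin.sum_univ_four] at h1
  simp only [sz]
  exact h1.symm

theorem sorted {n : ℕ} (c : Fin n → Fin 4) {x : Fin n → Fin n → ℝ} {D : ℝ} (hD : 0 ≤ D)
    (h01 : sz c 0 ≤ sz c 1) (h12 : sz c 1 ≤ sz c 2) (h23 : sz c 2 ≤ sz c 3)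
    (hx0 : ∀ u v, 0 ≤ x u v) (hx : ∀ u, x u u = 0) (hs : ∀ u v, x u v = x v u)
    (h2 : ∀ a b, a ≠ b → c a = c b → D ≤ x a b)
    (h3 : ∀ a b e, a ≠ b → b ≠ e → a ≠ e → D ≤ x a b + x b e + x a e) :
    D * (2 * ((n / 2 * ((n - 1) / 2) : ℕ) : ℝ)) ≤ ∑ u, ∑ v, x u v := by
  rcases Nat.eq_zero_or_pos n with h0 | hn
  · subst h0
    simp
  have htot := sz_total c
  have hT : ∑ u, ∑ v, x u v = (W c x 0 0 + W c x 1 1 + W c x 2 2 + W c x 3 3) +
      2 * (W c x 0 1 + W c x 0 2 + W c x 0 3 + W c x 1 2 + W c x 1 3 + W c x 2 3) := by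
    rw [total c x]
    simp only [Fin.sum_univ_four]
    rw [W_symm c hs 1 0, W_symm c hs 2 0, W_symm c hs 3 0, W_symm c hs 2 1, W_symm c hs 3 1,
      W_symm c hs 3 2]
    ring
  have d0 := diag c hx h2 0
  have d1 := diag c hx h2 1
  have d2 := diag c hx h2 2
  have d3 := diag c hx h2 3
  have t123 := triple c h3 (i := 0) (j := 1) (k := 2) (by decide) (by decide) (by decide)
  have t124 := triple c h3 (i := 0) (j := 1) (k := 3) (by decide) (by decide) (by decide)
  have t134 := triple c h3 (i := 0) (j := 2) (k := 3) (by decide) (by decide) (by decide)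
  have t234 := triple c h3 (i := 1) (j := 2) (k := 3) (by decide) (by decide) (by decide)
  have r01 : (sz c 0 : ℝ) ≤ sz c 1 := by exact_mod_cast h01
  have r12 : (sz c 1 : ℝ) ≤ sz c 2 := by exact_mod_cast h12
  have r23 : (sz c 2 : ℝ) ≤ sz c 3 := by exact_mod_cast h23
  have r0 : (0 : ℝ) ≤ sz c 0 := Nat.cast_nonneg _
  have r3 : (0 : ℝ) < sz c 3 := by
    have : 0 < sz c 3 := by omega
    exact_mod_cast this
  have hfin : ∀ s t : ℕ, s + t = n → D * (2 * ((n / 2 * ((n - 1) / 2) : ℕ) : ℝ)) ≤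
      D * ((s : ℝ) ^ 2 + (t : ℝ) ^ 2 - n) := by
    intro s t hst
    apply mul_le_mul_of_nonneg_left _ hD
    have h5 := bal s t
    rw [hst] at h5
    have h6 : (2 * ((n / 2 * ((n - 1) / 2) : ℕ) : ℝ)) + n ≤ (s : ℝ) ^ 2 + (t : ℝ) ^ 2 := by
      exact_mod_cast h5
    linarith
  have hnr : (n : ℝ) = sz c 0 + sz c 1 + sz c 2 + sz c 3 := by
    exact_mod_cast htot.symm
  rw [hT]
  rcases le_or_gt ((sz c 1 : ℝ) + sz c 2) (sz c 3) with hA | hB
  · have h7 := caseA r0 r01 r12 r3 hA (W_nonneg c hx0 0 3) (W_nonneg c hx0 1 3)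
      (W_nonneg c hx0 2 3) (D := D) (W12 := W c x 0 1) (W13 := W c x 0 2) (W23 := W c x 1 2)
      (by linarith) (by linarith) (by linarith)
    refine (hfin (sz c 0 + sz c 1 + sz c 2) (sz c 3) htot).trans ?_
    have h8 : D * (((sz c 0 + sz c 1 + sz c 2 : ℕ) : ℝ) ^ 2 + (sz c 3 : ℝ) ^ 2 - n) =
        D * ((sz c 0 : ℝ) ^ 2 - sz c 0) + D * ((sz c 1 : ℝ) ^ 2 - sz c 1) +
        D * ((sz c 2 : ℝ) ^ 2 - sz c 2) + D * ((sz c 3 : ℝ) ^ 2 - sz c 3) +
        2 * (D * ((sz c 0 : ℝ) * sz c 1 + sz c 0 * sz c 2 + sz c 1 * sz c 2)) := by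
      rw [hnr]
      push_cast
      ring
    rw [h8]
    linarith
  · have h7 := caseB r0 r01 r12 r23 hB (W_nonneg c hx0 1 3)
      (W_nonneg c hx0 2 3) (D := D) (W12 := W c x 0 1) (W13 := W c x 0 2) (W23 := W c x 1 2)
      (W14 := W c x 0 3) (by linarith) (by linarith) (by linarith) (by linarith)
    refine (hfin (sz c 0 + sz c 3) (sz c 1 + sz c 2) (by omega)).trans ?_
    have h8 : D * (((sz c 0 + sz c 3 : ℕ) : ℝ) ^ 2 + ((sz c 1 + sz c 2 : ℕ) : ℝ) ^ 2 - n) =
        D * ((sz c 0 : ℝ) ^ 2 - sz c 0) + D * ((sz c 1 : ℝ) ^ 2 - sz c 1) +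
        D * ((sz c 2 : ℝ) ^ 2 - sz c 2) + D * ((sz c 3 : ℝ) ^ 2 - sz c 3) +
        2 * (D * ((sz c 0 : ℝ) * sz c 3 + sz c 1 * sz c 2)) := by
      rw [hnr]
      push_cast
      ring
    rw [h8]
    linarith

theorem double {n : ℕ} (w : Fin n → Fin n → ℕ) (hs : ∀ a b, w a b = w b a) :
    ∑ u, ∑ v, (if u = v then (0 : ℝ) else (w u v : ℝ)) =
      2 * ((∑ q ∈ (univ : Finset (Fin n × Fin n)).filter (fun q => q.1 < q.2), w q.1 q.2 : ℕ) : ℝ)
      := by
  rw [← Fintype.sum_prod_type' (fun u v => if u = v then (0 : ℝ) else (w u v : ℝ))]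
  have h1 : ∀ q : Fin n × Fin n, (if q.1 = q.2 then (0 : ℝ) else (w q.1 q.2 : ℝ)) =
      (if q.1 < q.2 then (w q.1 q.2 : ℝ) else 0) + (if q.2 < q.1 then (w q.2 q.1 : ℝ) else 0) := by
    intro q
    rcases lt_trichotomy q.1 q.2 with h | h | h
    · rw [if_neg h.ne, if_pos h, if_neg (not_lt.2 h.le), add_zero]
    · rw [if_pos h, if_neg (not_lt.2 h.ge), if_neg (not_lt.2 h.le), add_zero]
    · rw [if_neg h.ne', if_neg (not_lt.2 h.le), if_pos h, zero_add, hs]
  rw [sum_congr rfl (fun q _ => h1 q), sum_add_distrib]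
  have h2 : ∑ q : Fin n × Fin n, (if q.2 < q.1 then (w q.2 q.1 : ℝ) else 0) =
      ∑ q : Fin n × Fin n, (if q.1 < q.2 then (w q.1 q.2 : ℝ) else 0) :=
    Fintype.sum_equiv (Equiv.prodComm (Fin n) (Fin n)) _ _ (fun q => rfl)
  rw [h2, ← sum_filter]
  push_cast
  ring

end LP

/-- [LP] weights on the pairs of `n` points in four classes -/
theorem lp {n : ℕ} (c : Fin n → Fin 4) (D : ℕ) (w : Fin n → Fin n → ℕ)
    (hs : ∀ a b, w a b = w b a) (h2 : ∀ a b, a ≠ b → c a = c b → D ≤ w a b)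
    (h3 : ∀ a b e, a ≠ b → b ≠ e → a ≠ e → D ≤ w a b + w b e + w a e) :
    D * ((n / 2) * ((n - 1) / 2)) ≤
      ∑ q ∈ (univ : Finset (Fin n × Fin n)).filter (fun q => q.1 < q.2), w q.1 q.2 := by
  obtain ⟨σ, hσ⟩ : ∃ σ : Equiv.Perm (Fin 4), Monotone (LP.sz c ∘ σ) :=
    ⟨Tuple.sort (LP.sz c), Tuple.monotone_sort _⟩
  have hsz : ∀ i, LP.sz (fun u => σ.symm (c u)) i = LP.sz c (σ i) := by
    intro i
    unfold LP.sz
    congr 1
    ext u
    simp only [mem_filter, mem_univ, true_and]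
    rw [Equiv.symm_apply_eq]
  have hm : ∀ i j : Fin 4, i ≤ j → LP.sz (fun u => σ.symm (c u)) i ≤
      LP.sz (fun u => σ.symm (c u)) j := by
    intro i j hij
    rw [hsz, hsz]
    exact hσ hij
  have key := LP.sorted (fun u => σ.symm (c u)) (D := (D : ℝ))
    (x := fun u v => if u = v then (0 : ℝ) else (w u v : ℝ)) (Nat.cast_nonneg D)
    (hm 0 1 (by decide)) (hm 1 2 (by decide)) (hm 2 3 (by decide))
    (by intro u v; split_ifs <;> positivity) (by intro u; simp)
    (by
      intro u v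
      by_cases h : u = v
      · rw [if_pos h, if_pos h.symm]
      · rw [if_neg h, if_neg (Ne.symm h), hs])
    (by
      intro a b hab hc
      rw [if_neg hab]
      exact_mod_cast h2 a b hab (σ.symm.injective hc))
    (by
      intro a b e hab hbe hae
      rw [if_neg hab, if_neg hbe, if_neg hae]
      exact_mod_cast h3 a b e hab hbe hae)
  rw [LP.double w hs] at key
  have h5 : (D : ℝ) * ((n / 2 * ((n - 1) / 2) : ℕ) : ℝ) ≤
      ((∑ q ∈ (univ : Finset (Fin n × Fin n)).filter (fun q => q.1 < q.2), w q.1 q.2 : ℕ) : ℝ) := by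
    linarith
  exact_mod_cast h5

end Vale.Agent.P040
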