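import Vale.Agent.P040.Pairs

/-! P040: the lower bound. -/

namespace Vale.Agent.P040

open Finset

namespace Drawing

variable {m n : ℕ} (D : Drawing m n)

theorem Cross.symm {D : Drawing m n} {e e' : Fin m × Fin n} (h : D.Cross e e') : D.Cross e' e := by
  obtain ⟨y, h1, h2, h3⟩ := h
  exact ⟨y, h2, h1, h3.symm⟩

theorem strict_scale {h h' t : ℝ} (h0 : h' ≠ 0) (hh : h' ∈ Set.uIcc 0 h) (ht0 : 0 < t)
    (ht1 : t < 1) : Strict h (t * h') := by
  rcases lt_or_gt_of_ne h0 with hn | hp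
  · have : h ≤ h' := by
      rcases Set.mem_uIcc.1 hh with h1 | h1
      · linarith
      · exact h1.1
    right
    constructor <;> nlinarith
  · have : h' ≤ h := by
      rcases Set.mem_uIcc.1 hh with h1 | h1
      · exact h1.2
      · linarith
    left
    constructor <;> nlinarith

theorem scale_mem {h h' t : ℝ} (hh : h' ∈ Set.uIcc 0 h) (ht : t ∈ Set.Icc (0 : ℝ) 1) :
    t * h' ∈ Set.uIcc 0 h := by
  rcases Set.mem_uIcc.1 hh with h1 | h1
  · exact Set.mem_uIcc.2 (Or.inl ⟨mul_nonneg ht.1 h1.1, by nlinarith [ht.1, ht.2, h1.1, h1.2]⟩)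
  · refine Set.mem_uIcc.2 (Or.inr ⟨by nlinarith [ht.1, ht.2, h1.1, h1.2], ?_⟩)
    exact mul_nonpos_of_nonneg_of_nonpos ht.1 h1.2

/-- Intermediate value theorem for two edges. -/
theorem cross_of {i k : Fin m} {j l : Fin n} (hl : D.h l ∈ Set.uIcc 0 (D.h j))
    (h : (D.r i < D.r k ∧ D.x l < D.f i j (D.h l)) ∨ (D.r k < D.r i ∧ D.f i j (D.h l) < D.x l)) :
    D.Cross (i, j) (k, l) := by
  set F : ℝ → ℝ := fun t => D.f i j (t * D.h l) - D.f k l (t * D.h l) with hF
  have hc : ContinuousOn F (Set.Icc 0 1) := by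
    refine ContinuousOn.sub ?_ ?_
    · exact (D.cont i j).comp (Continuous.continuousOn (by fun_prop))
        (fun t ht => scale_mem hl ht)
    · exact (D.cont k l).comp (Continuous.continuousOn (by fun_prop))
        (fun t ht => scale_mem Set.right_mem_uIcc ht)
  have h0 : F 0 = D.r i - D.r k := by simp [hF, D.f_zero]
  have h1 : F 1 = D.f i j (D.h l) - D.x l := by simp [hF, D.f_h]
  have key : ∃ t, 0 < t ∧ t < 1 ∧ F t = 0 := by
    rcases h with ⟨ha, hb⟩ | ⟨ha, hb⟩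
    · have := intermediate_value_Ioo (zero_le_one (α := ℝ)) hc
      obtain ⟨t, ht, ht'⟩ := this (show (0 : ℝ) ∈ Set.Ioo (F 0) (F 1) by
        rw [h0, h1]; constructor <;> linarith)
      exact ⟨t, ht.1, ht.2, ht'⟩
    · have := intermediate_value_Ioo' (zero_le_one (α := ℝ)) hc
      obtain ⟨t, ht, ht'⟩ := this (show (0 : ℝ) ∈ Set.Ioo (F 1) (F 0) by
        rw [h0, h1]; constructor <;> linarith)
      exact ⟨t, ht.1, ht.2, ht'⟩
  obtain ⟨t, ht0, ht1, ht⟩ := key
  refine ⟨t * D.h l, strict_scale (D.h_ne l) hl ht0 ht1,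
    strict_scale (D.h_ne l) Set.right_mem_uIcc ht0 ht1, ?_⟩
  have : D.f i j (t * D.h l) - D.f k l (t * D.h l) = 0 := ht
  show D.f i j (t * D.h l) = D.f k l (t * D.h l)
  linarith

theorem f_ne {i : Fin m} {j l : Fin n} (hjl : j ≠ l) (hl : D.h l ∈ Set.uIcc 0 (D.h j)) :
    D.f i j (D.h l) ≠ D.x l := by
  intro h
  by_cases he : D.h l = D.h j
  · apply hjl
    apply D.b_injective
    show (D.x j, D.h j) = (D.x l, D.h l)
    rw [← h, he, D.f_h]
  · have hs : Strict (D.h j) (D.h l) := by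
      rcases Set.mem_uIcc.1 hl with h1 | h1
      · exact Or.inl ⟨lt_of_le_of_ne h1.1 (D.h_ne l).symm, lt_of_le_of_ne h1.2 he⟩
      · exact Or.inr ⟨lt_of_le_of_ne h1.1 (Ne.symm he), lt_of_le_of_ne h1.2 (D.h_ne l)⟩
    exact D.avoid i j l _ hs (by rw [h])

/-- one pair of vertices of the second class on the same side -/
theorem pair_aux {j l : Fin n} (hjl : j ≠ l) (hl : D.h l ∈ Set.uIcc 0 (D.h j)) (i k : Fin m)
    (hik : i ≠ k) (hP : D.x l < D.f i j (D.h l) ↔ D.x l < D.f k j (D.h l)) :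
    D.Cross (i, j) (k, l) ∨ D.Cross (k, j) (i, l) := by
  have hr : D.r i ≠ D.r k := fun h => hik (D.r_injective h)
  have hi := D.f_ne (i := i) hjl hl
  have hk := D.f_ne (i := k) hjl hl
  rcases lt_or_gt_of_ne hr with h | h <;> by_cases hg : D.x l < D.f i j (D.h l)
  · exact Or.inl (D.cross_of hl (Or.inl ⟨h, hg⟩))
  · refine Or.inr (D.cross_of hl (Or.inr ⟨h, ?_⟩))
    exact lt_of_le_of_ne (not_lt.1 fun h' => hg (hP.2 h')) hk
  · exact Or.inr (D.cross_of hl (Or.inl ⟨h, hP.1 hg⟩))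
  · exact Or.inl (D.cross_of hl (Or.inr ⟨h, lt_of_le_of_ne (not_lt.1 hg) hi⟩))

theorem pair {j l : Fin n} (hjl : j ≠ l) (hs : 0 < D.h j ↔ 0 < D.h l) :
    ∃ P : Fin m → Prop, ∀ i k, i ≠ k → (P i ↔ P k) →
      D.Cross (i, j) (k, l) ∨ D.Cross (k, j) (i, l) := by
  have hcase : D.h l ∈ Set.uIcc 0 (D.h j) ∨ D.h j ∈ Set.uIcc 0 (D.h l) := by
    have hj := D.h_ne j
    have hl := D.h_ne l
    rcases lt_or_gt_of_ne hj with h1 | h1
    · have h2 : D.h l < 0 := lt_of_le_of_ne (not_lt.1 fun h => by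
        have := hs.2 h; linarith) hl
      rcases le_total (D.h j) (D.h l) with h3 | h3
      · exact Or.inl (Set.mem_uIcc.2 (Or.inr ⟨h3, h2.le⟩))
      · exact Or.inr (Set.mem_uIcc.2 (Or.inr ⟨h3, h1.le⟩))
    · have h2 : 0 < D.h l := hs.1 h1
      rcases le_total (D.h j) (D.h l) with h3 | h3
      · exact Or.inr (Set.mem_uIcc.2 (Or.inl ⟨h1.le, h3⟩))
      · exact Or.inl (Set.mem_uIcc.2 (Or.inl ⟨h2.le, h3⟩))
  rcases hcase with h | h
  · exact ⟨fun i => D.x l < D.f i j (D.h l), fun i k hik hP => D.pair_aux hjl h i k hik hP⟩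
  · refine ⟨fun i => D.x j < D.f i l (D.h j), fun i k hik hP => ?_⟩
    rcases D.pair_aux hjl.symm h i k hik hP with h' | h'
    · exact Or.inr h'.symm
    · exact Or.inl h'.symm

theorem main : d m * d n ≤ D.crossings.ncard := by
  classical
  set C : Finset ((Fin m × Fin n) × (Fin m × Fin n)) :=
    univ.filter (fun p => p ∈ D.crossings) with hC
  have hCn : D.crossings.ncard = C.card := by
    rw [← Set.ncard_coe_finset]
    congr 1
    ext p
    simp [hC]
  rw [hCn]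
  set T : Finset (Fin n × Fin n) :=
    univ.filter (fun q => q.1 < q.2 ∧ (0 < D.h q.1 ↔ 0 < D.h q.2)) with hT
  have hTc : d n ≤ T.card := pairs (fun j => 0 < D.h j)
  have hfib : C.card = ∑ q : Fin n × Fin n, (C.filter (fun p => (p.1.2, p.2.2) = q)).card :=
    card_eq_sum_card_fiberwise (fun p _ => mem_coe.2 (mem_univ _))
  have hone : ∀ q ∈ T, d m ≤ (C.filter (fun p => (p.1.2, p.2.2) = q)).card := by
    rintro ⟨j, l⟩ hq
    rw [hT, mem_filter] at hq
    obtain ⟨-, hjl, hs⟩ := hq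
    obtain ⟨P, hP⟩ := D.pair hjl.ne hs
    refine (pairs P).trans ?_
    have hch : ∀ q : Fin m × Fin m, ∃ p : (Fin m × Fin n) × (Fin m × Fin n),
        (q.1 < q.2 ∧ (P q.1 ↔ P q.2)) →
        (p ∈ C.filter (fun p => (p.1.2, p.2.2) = (j, l)) ∧
        ((p.1.1 = q.1 ∧ p.2.1 = q.2) ∨ (p.1.1 = q.2 ∧ p.2.1 = q.1))) := by
      rintro ⟨i, k⟩
      by_cases hik : i < k ∧ (P i ↔ P k)
      · rcases hP i k hik.1.ne hik.2 with h | h
        · refine ⟨((i, j), (k, l)), fun _ => ⟨?_, Or.inl ⟨rfl, rfl⟩⟩⟩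
          simp only [hC, mem_filter, mem_univ, true_and]
          exact ⟨⟨hik.1.ne, hjl, h⟩, trivial⟩
        · refine ⟨((k, j), (i, l)), fun _ => ⟨?_, Or.inr ⟨rfl, rfl⟩⟩⟩
          simp only [hC, mem_filter, mem_univ, true_and]
          exact ⟨⟨hik.1.ne', hjl, h⟩, trivial⟩
      · exact ⟨((i, j), (k, l)), fun h => absurd h hik⟩
    choose g hg using hch
    refine card_le_card_of_injOn g (fun q hq => ?_) ?_
    · rw [mem_coe, mem_filter] at hq
      exact mem_coe.2 (hg q hq.2).1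
    · rintro ⟨i, k⟩ hq ⟨i', k'⟩ hq' he
      rw [mem_coe, mem_filter] at hq hq'
      have h1 := (hg _ hq.2).2
      have h2 := (hg _ hq'.2).2
      rw [← he] at h2
      have h3 : i < k := hq.2.1
      have h4 : i' < k' := hq'.2.1
      simp only [Prod.mk.injEq]
      rcases h1 with ⟨a, b⟩ | ⟨a, b⟩ <;> rcases h2 with ⟨a', b'⟩ | ⟨a', b'⟩ <;>
        simp only at a b a' b'
      · exact ⟨a.symm.trans a', b.symm.trans b'⟩
      · exfalso
        have e1 : i = k' := a.symm.trans a'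
        have e2 : k = i' := b.symm.trans b'
        rw [e1, e2] at h3
        exact absurd h3 (not_lt.2 h4.le)
      · exfalso
        have e1 : k = i' := a.symm.trans a'
        have e2 : i = k' := b.symm.trans b'
        rw [e1, e2] at h3
        exact absurd h3 (not_lt.2 h4.le)
      · exact ⟨b.symm.trans b', a.symm.trans a'⟩
  rw [hfib]
  calc d m * d n ≤ d m * T.card := Nat.mul_le_mul_left _ hTc
    _ = ∑ q ∈ T, d m := by rw [sum_const, smul_eq_mul, mul_comm]
    _ ≤ ∑ q ∈ T, (C.filter (fun p => (p.1.2, p.2.2) = q)).card := sum_le_sum hone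
    _ ≤ ∑ q : Fin n × Fin n, (C.filter (fun p => (p.1.2, p.2.2) = q)).card :=
      sum_le_sum_of_subset (subset_univ _)

end Drawing

end Vale.Agent.P040
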