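import Vale.Agent.P040.Pairs

/-! P040: Mantel's theorem in the form used here. -/

namespace Vale.Agent.P040

open Finset

theorem mantel_arith (m e e' : ℕ) (h1 : e + e' = m.choose 2)
    (h2 : e' ≤ (m ^ 2 - (m % 2) ^ 2) * (2 - 1) / (2 * 2) + (m % 2).choose 2) : d m ≤ e := by
  rcases Nat.even_or_odd' m with ⟨c, hc | hc⟩
  · have h3 : m % 2 = 0 := by omega
    have h4 : (m ^ 2 - (m % 2) ^ 2) * (2 - 1) / (2 * 2) + (m % 2).choose 2 = c * c := by
      rw [h3, hc]
      have : ((2 * c) ^ 2 - 0 ^ 2) * (2 - 1) = 4 * (c * c) := by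
        have : (0:ℕ) ^ 2 = 0 := by norm_num
        rw [this, Nat.sub_zero]; ring
      rw [this]
      simp
    rw [h4] at h2
    have h5 : m.choose 2 = c * (2 * c - 1) := by
      rw [Nat.choose_two_right, hc]
      have : 2 * c * (2 * c - 1) = 2 * (c * (2 * c - 1)) := by ring
      rw [this]; simp
    rw [h5] at h1
    have h6 : d m = c * (c - 1) := by
      unfold d
      have e1 : m / 2 = c := by omega
      have e2 : (m - 1) / 2 = c - 1 := by omega
      rw [e1, e2]
    rw [h6]
    rcases Nat.eq_zero_or_pos c with h0 | h0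
    · simp [h0]
    · obtain ⟨k, rfl⟩ : ∃ k, c = k + 1 := ⟨c - 1, by omega⟩
      have e3 : 2 * (k + 1) - 1 = 2 * k + 1 := by omega
      rw [e3] at h1
      have e4 : k + 1 - 1 = k := by omega
      rw [e4]
      nlinarith
  · have h3 : m % 2 = 1 := by omega
    have h4 : (m ^ 2 - (m % 2) ^ 2) * (2 - 1) / (2 * 2) + (m % 2).choose 2 = c * (c + 1) := by
      rw [h3, hc]
      have : ((2 * c + 1) ^ 2 - 1 ^ 2) * (2 - 1) = 4 * (c * (c + 1)) := by
        have : (2 * c + 1) ^ 2 = 4 * (c * (c + 1)) + 1 ^ 2 := by ring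
        rw [this, Nat.add_sub_cancel]
        simp
      rw [this]
      simp
    rw [h4] at h2
    have h5 : m.choose 2 = c * (2 * c + 1) := by
      rw [Nat.choose_two_right, hc]
      have : (2 * c + 1) * (2 * c + 1 - 1) = 2 * (c * (2 * c + 1)) := by
        rw [Nat.add_sub_cancel]; ring
      rw [this]; simp
    rw [h5] at h1
    have h6 : d m = c * c := by
      unfold d
      have e1 : m / 2 = c := by omega
      have e2 : (m - 1) / 2 = c := by omega
      rw [e1, e2]
    rw [h6]
    nlinarith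

/-- If every triple contains a pair of `S`, then `S` has at least `d m` elements. -/
theorem mantel {m : ℕ} (S : Finset (Fin m × Fin m))
    (h : ∀ i j k : Fin m, i ≠ j → j ≠ k → i ≠ k →
      ((i, j) ∈ S ∨ (j, i) ∈ S) ∨ ((j, k) ∈ S ∨ (k, j) ∈ S) ∨ ((i, k) ∈ S ∨ (k, i) ∈ S)) :
    d m ≤ S.card := by
  classical
  let G : SimpleGraph (Fin m) :=
    { Adj := fun i j => i ≠ j ∧ ((i, j) ∈ S ∨ (j, i) ∈ S)
      symm := ⟨fun i j hij => ⟨hij.1.symm, hij.2.symm⟩⟩
      loopless := ⟨fun i hi => hi.1 rfl⟩ }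
  have hcf : Gᶜ.CliqueFree (2 + 1) := by
    intro t ht
    rw [SimpleGraph.is3Clique_iff] at ht
    obtain ⟨i, j, k, hij, hik, hjk, -⟩ := ht
    rw [SimpleGraph.compl_adj] at hij hik hjk
    rcases h i j k hij.1 hjk.1 hik.1 with h1 | h1 | h1
    · exact hij.2 ⟨hij.1, h1⟩
    · exact hjk.2 ⟨hjk.1, h1⟩
    · exact hik.2 ⟨hik.1, h1⟩
  have h1 := hcf.card_edgeFinset_le
  simp only [Fintype.card_fin] at h1
  have h2 : G.edgeFinset.card + Gᶜ.edgeFinset.card = m.choose 2 := by
    have h3 : G ⊔ Gᶜ = ⊤ := sup_compl_eq_top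
    have h4 : Disjoint G Gᶜ := disjoint_compl_right
    have h5 := SimpleGraph.card_edgeFinset_top_eq_card_choose_two (V := Fin m)
    rw [Fintype.card_fin] at h5
    rw [← h5, ← card_union_of_disjoint (SimpleGraph.disjoint_edgeFinset.2 h4),
      ← SimpleGraph.edgeFinset_sup]
    congr 1
    ext e
    induction e using Sym2.ind with
    | _ i j =>
      simp only [SimpleGraph.mem_edgeFinset, SimpleGraph.mem_edgeSet, SimpleGraph.sup_adj,
        SimpleGraph.compl_adj, SimpleGraph.top_adj]
      constructor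
      · rintro (h' | h')
        · exact h'.1
        · exact h'.1
      · intro hne
        by_cases hG : G.Adj i j
        · exact Or.inl hG
        · exact Or.inr ⟨hne, hG⟩
  refine (mantel_arith m _ _ h2 h1).trans ?_
  have h6 : G.edgeFinset ⊆ S.image (fun q => s(q.1, q.2)) := by
    intro e
    induction e using Sym2.ind with
    | _ i j =>
      intro he
      rw [SimpleGraph.mem_edgeFinset, SimpleGraph.mem_edgeSet] at he
      rcases he.2 with h' | h'
      · exact mem_image.2 ⟨(i, j), h', rfl⟩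
      · exact mem_image.2 ⟨(j, i), h', Sym2.eq_swap⟩
  exact (card_le_card h6).trans card_image_le

end Vale.Agent.P040
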