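import Vale.Agent.P040.Defs

/-! P040: counting pairs on the same side. -/

namespace Vale.Agent.P040

open Finset

theorem d_le (a b : ℕ) : 2 * d (a + b) ≤ (a * a - a) + (b * b - b) := by
  have ha : a ≤ a * a := Nat.le_mul_self a
  have hb : b ≤ b * b := Nat.le_mul_self b
  have key : 2 * d (a + b) + a + b ≤ a * a + b * b := by
    unfold d
    have h1 : (2 : ℤ) * (((a + b) / 2 : ℕ) * ((a + b - 1) / 2 : ℕ)) + a + b ≤ a * a + b * b := by
      rcases Nat.even_or_odd' (a + b) with ⟨c, hc | hc⟩
      · have e1 : (a + b) / 2 = c := by omega
        have e2 : (a + b - 1) / 2 = c - 1 := by omega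
        rw [e1, e2]
        rcases Nat.eq_zero_or_pos c with h0 | h0
        · have : a = 0 := by omega
          have : b = 0 := by omega
          subst h0; simp_all
        · have e3 : ((c - 1 : ℕ) : ℤ) = c - 1 := by omega
          rw [e3]
          have e4 : (b : ℤ) = 2 * c - a := by omega
          rw [e4]
          nlinarith [sq_nonneg ((a : ℤ) - c)]
      · have e1 : (a + b) / 2 = c := by omega
        have e2 : (a + b - 1) / 2 = c := by omega
        rw [e1, e2]
        have e4 : (b : ℤ) = 2 * c + 1 - a := by omega
        rw [e4]
        have h5 : 0 ≤ ((a : ℤ) - c) * (a - c - 1) := by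
          rcases le_or_gt (a : ℤ) c with h | h
          · nlinarith
          · have : (a : ℤ) - c - 1 ≥ 0 := by omega
            nlinarith
        nlinarith
    exact_mod_cast h1
  omega

/-- Among `n` objects in two classes at least `d n` pairs lie in the same class. -/
theorem pairs {n : ℕ} (P : Fin n → Prop) [DecidablePred P] :
    d n ≤ ((univ : Finset (Fin n × Fin n)).filter (fun q => q.1 < q.2 ∧ (P q.1 ↔ P q.2))).card := by
  classical
  set T := (univ : Finset (Fin n × Fin n)).filter (fun q => q.1 < q.2 ∧ (P q.1 ↔ P q.2)) with hT
  set A := (univ : Finset (Fin n)).filter P with hA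
  set B := (univ : Finset (Fin n)).filter (fun i => ¬ P i) with hB
  have hAB : A.card + B.card = n := by
    have := Finset.card_filter_add_card_filter_not (s := (univ : Finset (Fin n))) P
    simpa using this
  have h1 : A.offDiag ∪ B.offDiag ⊆ T ∪ T.image Prod.swap := by
    rintro ⟨i, k⟩ hik
    simp only [mem_union, mem_offDiag, hA, hB, mem_filter, mem_univ, true_and] at hik
    have hne : i ≠ k := by
      rcases hik with h | h
      · exact h.2.2
      · exact h.2.2
    have hP : P i ↔ P k := by tauto
    rcases lt_or_gt_of_ne hne with h | h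
    · exact mem_union_left _ (by simp [hT, h, hP])
    · refine mem_union_right _ (mem_image.2 ⟨(k, i), ?_, rfl⟩)
      simp [hT, h, hP]
  have h2 : Disjoint A.offDiag B.offDiag := by
    rw [Finset.disjoint_left]
    rintro ⟨i, k⟩ h h'
    simp only [mem_offDiag, hA, hB, mem_filter, mem_univ, true_and] at h h'
    exact h'.1 h.1
  have h3 := card_le_card h1
  rw [card_union_of_disjoint h2, offDiag_card, offDiag_card] at h3
  have h4 : (T ∪ T.image Prod.swap).card ≤ T.card + T.card :=
    (card_union_le _ _).trans (Nat.add_le_add_left card_image_le _)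
  have h5 := d_le A.card B.card
  rw [hAB] at h5
  omega

end Vale.Agent.P040
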