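import Vale.Agent.P040.Geo
import Vale.Agent.P040.Mantel

/-! P040: straight-line drawings, assembly from the abstract inequality. -/

namespace Vale.Agent.P040

open Finset

/-- the abstract inequality for `k` classes -/
def LPStatement (k : ℕ) : Prop := ∀ {n : ℕ} (c : Fin n → Fin k) (D : ℕ) (w : Fin n → Fin n → ℕ),
    (∀ a b, w a b = w b a) → (∀ a b, a ≠ b → c a = c b → D ≤ w a b) →
    (∀ a b e, a ≠ b → b ≠ e → a ≠ e → D ≤ w a b + w b e + w a e) →
    D * ((n / 2) * ((n - 1) / 2)) ≤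
      ∑ q ∈ (univ : Finset (Fin n × Fin n)).filter (fun q => q.1 < q.2), w q.1 q.2

open Classical in
/-- ordered pairs of vertices of the first class such that the edges to `q j` and `q l` cross -/
noncomputable def Y {m n : ℕ} (p : Fin m → ℝ × ℝ) (q : Fin n → ℝ × ℝ) (j l : Fin n) :
    Finset (Fin m × Fin m) :=
  univ.filter (fun e => e.1 ≠ e.2 ∧
    (openSegment ℝ (p e.1) (q j) ∩ openSegment ℝ (p e.2) (q l)).Nonempty)

theorem mem_Y {m n : ℕ} {p : Fin m → ℝ × ℝ} {q : Fin n → ℝ × ℝ} {j l : Fin n}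
    {e : Fin m × Fin m} : e ∈ Y p q j l ↔ e.1 ≠ e.2 ∧
    (openSegment ℝ (p e.1) (q j) ∩ openSegment ℝ (p e.2) (q l)).Nonempty := by
  classical
  simp [Y]

theorem Y_symm {m n : ℕ} (p : Fin m → ℝ × ℝ) (q : Fin n → ℝ × ℝ) (j l : Fin n) :
    (Y p q j l).card = (Y p q l j).card := by
  classical
  refine card_bij (fun e _ => e.swap) ?_ ?_ ?_
  · intro e he
    rw [mem_Y] at he ⊢
    refine ⟨he.1.symm, ?_⟩
    rw [Set.inter_comm]
    exact he.2
  · intro e _ e' _ h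
    exact Prod.swap_injective h
  · intro e he
    refine ⟨e.swap, ?_, Prod.swap_swap e⟩
    rw [mem_Y] at he ⊢
    refine ⟨he.1.symm, ?_⟩
    rw [Set.inter_comm]
    exact he.2

section

variable {m n : ℕ} {p : Fin m → ℝ × ℝ} {q : Fin n → ℝ × ℝ}

theorem key (h1 : ∀ j i k, i ≠ k → det (q j) (p i) (p k) ≠ 0)
    (h2 : ∀ i j l, j ≠ l → det (q j) (q l) (p i) ≠ 0) {j l : Fin n} (hjl : j ≠ l)
    {i k r : Fin m} (hik : i ≠ k) (hkr : k ≠ r) (hir : i ≠ r)
    (h : Ccw (q j) (p i) (p k) (p r) ↔ Ccw (q l) (p i) (p k) (p r)) :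
    ((i, k) ∈ Y p q j l ∨ (k, i) ∈ Y p q j l) ∨ ((k, r) ∈ Y p q j l ∨ (r, k) ∈ Y p q j l) ∨
      ((i, r) ∈ Y p q j l ∨ (r, i) ∈ Y p q j l) := by
  have := five (q j) (q l) (p i) (p k) (p r) (h1 j i k hik) (h1 j k r hkr) (h1 j r i hir.symm)
    (h1 l i k hik) (h1 l k r hkr) (h1 l r i hir.symm) (h2 i j l hjl) (h2 k j l hjl)
    (h2 r j l hjl) h
  rcases this with (h' | h') | (h' | h') | (h' | h')
  · exact Or.inl (Or.inl (mem_Y.2 ⟨hik, h'⟩))
  · exact Or.inl (Or.inr (mem_Y.2 ⟨hik.symm, h'⟩))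
  · exact Or.inr (Or.inl (Or.inl (mem_Y.2 ⟨hkr, h'⟩)))
  · exact Or.inr (Or.inl (Or.inr (mem_Y.2 ⟨hkr.symm, h'⟩)))
  · exact Or.inr (Or.inr (Or.inr (mem_Y.2 ⟨hir.symm, h'⟩)))
  · exact Or.inr (Or.inr (Or.inl (mem_Y.2 ⟨hir, h'⟩)))

theorem w_same (h1 : ∀ j i k, i ≠ k → det (q j) (p i) (p k) ≠ 0)
    (h2 : ∀ i j l, j ≠ l → det (q j) (q l) (p i) ≠ 0) {j l : Fin n} (hjl : j ≠ l)
    (hs : SameOrder p (q j) (q l)) : d m ≤ (Y p q j l).card :=
  mantel _ fun i k r hik hkr hir => key h1 h2 hjl hik hkr hir (hs i k r hik hkr hir)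

theorem w_triple (h1 : ∀ j i k, i ≠ k → det (q j) (p i) (p k) ≠ 0)
    (h2 : ∀ i j l, j ≠ l → det (q j) (q l) (p i) ≠ 0) {a b e : Fin n} (hab : a ≠ b)
    (hbe : b ≠ e) (hae : a ≠ e) :
    d m ≤ (Y p q a b).card + (Y p q b e).card + (Y p q a e).card := by
  classical
  have h3 : d m ≤ (Y p q a b ∪ Y p q b e ∪ Y p q a e).card := by
    refine mantel _ fun i k r hik hkr hir => ?_
    have mono : ∀ S T : Finset (Fin m × Fin m), S ⊆ T →
        (((i, k) ∈ S ∨ (k, i) ∈ S) ∨ ((k, r) ∈ S ∨ (r, k) ∈ S) ∨ ((i, r) ∈ S ∨ (r, i) ∈ S)) →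
        (((i, k) ∈ T ∨ (k, i) ∈ T) ∨ ((k, r) ∈ T ∨ (r, k) ∈ T) ∨ ((i, r) ∈ T ∨ (r, i) ∈ T)) := by
      intro S T hST h
      rcases h with (h | h) | (h | h) | (h | h)
      · exact Or.inl (Or.inl (hST h))
      · exact Or.inl (Or.inr (hST h))
      · exact Or.inr (Or.inl (Or.inl (hST h)))
      · exact Or.inr (Or.inl (Or.inr (hST h)))
      · exact Or.inr (Or.inr (Or.inl (hST h)))
      · exact Or.inr (Or.inr (Or.inr (hST h)))
    have s1 : Y p q a b ⊆ Y p q a b ∪ Y p q b e ∪ Y p q a e :=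
      subset_union_left.trans subset_union_left
    have s2 : Y p q b e ⊆ Y p q a b ∪ Y p q b e ∪ Y p q a e :=
      subset_union_right.trans subset_union_left
    have s3 : Y p q a e ⊆ Y p q a b ∪ Y p q b e ∪ Y p q a e := subset_union_right
    by_cases x : Ccw (q a) (p i) (p k) (p r) <;> by_cases y : Ccw (q b) (p i) (p k) (p r)
    · exact mono _ _ s1 (key h1 h2 hab hik hkr hir (iff_of_true x y))
    · by_cases z : Ccw (q e) (p i) (p k) (p r)
      · exact mono _ _ s3 (key h1 h2 hae hik hkr hir (iff_of_true x z))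
      · exact mono _ _ s2 (key h1 h2 hbe hik hkr hir (iff_of_false y z))
    · by_cases z : Ccw (q e) (p i) (p k) (p r)
      · exact mono _ _ s2 (key h1 h2 hbe hik hkr hir (iff_of_true y z))
      · exact mono _ _ s3 (key h1 h2 hae hik hkr hir (iff_of_false x z))
    · exact mono _ _ s1 (key h1 h2 hab hik hkr hir (iff_of_false x y))
  refine h3.trans ((card_union_le _ _).trans ?_)
  exact Nat.add_le_add_right (card_union_le _ _) _

theorem sum_le (p : Fin m → ℝ × ℝ) (q : Fin n → ℝ × ℝ) :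
    ∑ t ∈ (univ : Finset (Fin n × Fin n)).filter (fun t => t.1 < t.2), (Y p q t.1 t.2).card ≤
      (segCrossings p q).ncard := by
  classical
  set C : Finset ((Fin m × Fin n) × (Fin m × Fin n)) :=
    univ.filter (fun e => e ∈ segCrossings p q) with hC
  have hCn : (segCrossings p q).ncard = C.card := by
    rw [← Set.ncard_coe_finset]
    congr 1
    ext e
    simp [hC]
  have hfib : C.card = ∑ t : Fin n × Fin n, (C.filter (fun e => (e.1.2, e.2.2) = t)).card :=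
    card_eq_sum_card_fiberwise (fun e _ => mem_coe.2 (mem_univ _))
  rw [hCn, hfib]
  refine (sum_le_sum (fun t ht => ?_)).trans (sum_le_sum_of_subset (subset_univ _))
  rw [mem_filter] at ht
  refine card_le_card_of_injOn (fun e => ((e.1, t.1), (e.2, t.2))) (fun e he => ?_) ?_
  · rw [mem_coe, mem_Y] at he
    rw [mem_coe]
    simp only [hC, mem_filter, mem_univ, true_and]
    exact ⟨⟨he.1, ht.2, he.2⟩, trivial⟩
  · intro e _ e' _ h
    simp only [Prod.mk.injEq] at h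
    exact Prod.ext h.1.1 h.2.1

theorem rot {k : ℕ} (hLP : LPStatement k) (h1 : ∀ j i k, i ≠ k → det (q j) (p i) (p k) ≠ 0)
    (h2 : ∀ i j l, j ≠ l → det (q j) (q l) (p i) ≠ 0) (c : Fin n → Fin k)
    (hc : ∀ j l, c j = c l → SameOrder p (q j) (q l)) :
    d m * d n ≤ (segCrossings p q).ncard := by
  refine le_trans ?_ (sum_le p q)
  exact hLP c (d m) (fun j l => (Y p q j l).card) (fun a b => Y_symm p q a b)
    (fun a b hab hcab => w_same h1 h2 hab (hc a b hcab))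
    (fun a b e hab hbe hae => w_triple h1 h2 hab hbe hae)

end

end Vale.Agent.P040
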