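import Vale.Agent.P040.Defs

/-! P040: straight-line drawings and cyclic orders, definitions. -/

namespace Vale.Agent.P040

/-- Twice the signed area of the triangle `a b c`. -/
def det (a b c : ℝ × ℝ) : ℝ := (b.1 - a.1) * (c.2 - a.2) - (b.2 - a.2) * (c.1 - a.1)

/-- Seen from `q`, the points `a, b, c` appear in counterclockwise cyclic order: at least two of the
three angles from `a` to `b`, from `b` to `c` and from `c` to `a` (counterclockwise, seen from `q`)
are smaller than `π`. -/
def Ccw (q a b c : ℝ × ℝ) : Prop :=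
  (0 < det q a b ∧ 0 < det q b c) ∨ (0 < det q b c ∧ 0 < det q c a) ∨
    (0 < det q c a ∧ 0 < det q a b)

/-- `q` and `q'` see the points `p i` in the same cyclic order. -/
def SameOrder {m : ℕ} (p : Fin m → ℝ × ℝ) (q q' : ℝ × ℝ) : Prop :=
  ∀ i j k : Fin m, i ≠ j → j ≠ k → i ≠ k → (Ccw q (p i) (p j) (p k) ↔ Ccw q' (p i) (p j) (p k))

/-- The crossing pairs of independent edges in the straight-line drawing of `K_{m,n}` with vertices
`p i` and `q j`; every unordered pair is listed once. -/
def segCrossings {m n : ℕ} (p : Fin m → ℝ × ℝ) (q : Fin n → ℝ × ℝ) :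
    Set ((Fin m × Fin n) × (Fin m × Fin n)) :=
  {e | e.1.1 ≠ e.2.1 ∧ e.1.2 < e.2.2 ∧
    (openSegment ℝ (p e.1.1) (q e.1.2) ∩ openSegment ℝ (p e.2.1) (q e.2.2)).Nonempty}

end Vale.Agent.P040
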