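import Vale.Agent.P040.Deg

/-! P040: two tripods in a half-plane, without any condition on legs with the same foot. -/

open Set Complex

namespace Vale.Agent.P040

theorem le_of_cl_eq {x : ℝ} (h : cl x = 1) : 1 ≤ x := by
  by_contra h'
  have h1 := not_le.1 h'
  unfold cl at h
  rcases le_total 0 (min x 1) with h2 | h2
  · rw [max_eq_right h2, min_eq_left h1.le] at h
    linarith
  · rw [max_eq_left h2] at h
    linarith

theorem L1 {w1 w2 w3 T U X Y k1 k2 σ p1 p2 q1 q2 : ℝ} (h1 : 0 ≤ w1) (h2 : 0 ≤ w2) (h3 : 0 ≤ w3)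
    (hw : w1 + w2 + w3 = 1) (h13 : w1 * w3 = 0) (hT : T ≤ 1) (hU : U ≤ 1)
    (hTU : T = 1 ∨ U = 1) (hP : T < 1 → 0 < p2) (hQ : U < 1 → 0 < q2) (hP1 : T = 1 → p2 = 0)
    (hQ1 : U = 1 → q2 = 0) (hPQ : T = 1 → U = 1 → 0 < σ * (p1 - q1)) (hk1 : k1 = σ * T)
    (hk2 : k2 = U * (1 - T)) (hX : T = 1 → 0 < σ * X) (hY : U = 1 → 0 < Y)
    (e1 : w1 * (p1 - q1) + w2 * k1 + w3 * X = 0)
    (e2 : w1 * (p2 - q2) + w2 * k2 + w3 * Y = 0) : False := by
  by_cases hT1 : T = 1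
  · have hσ : 0 < σ * σ := by
      have : σ ≠ 0 := fun h => by have := hX hT1; rw [h, zero_mul] at this; exact lt_irrefl _ this
      exact mul_self_pos.2 this
    have hk : 0 < σ * k1 := by rw [hk1, hT1, mul_one]; exact hσ
    have e1' : w1 * (σ * (p1 - q1)) + w2 * (σ * k1) + w3 * (σ * X) = 0 := by
      have : w1 * (σ * (p1 - q1)) + w2 * (σ * k1) + w3 * (σ * X) =
        σ * (w1 * (p1 - q1) + w2 * k1 + w3 * X) := by ring
      rw [this, e1, mul_zero]
    by_cases hU1 : U = 1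
    · exact comb_a h1 h2 h3 hw (hPQ hT1 hU1) hk (hX hT1) e1'
    · have hq := hQ (lt_of_le_of_ne hU hU1)
      have hp := hP1 hT1
      exact comb_b h1 h2 h3 hw h13 (show p2 - q2 ≠ 0 by rw [hp]; linarith)
        (by rw [hk2, hT1]; ring) hk (hX hT1) e1' e2
  · have hU1 : U = 1 := hTU.resolve_left hT1
    have hTl := lt_of_le_of_ne hT hT1
    have hp := hP hTl
    have hq := hQ1 hU1
    exact comb_a h1 h2 h3 hw (show 0 < p2 - q2 by rw [hq]; linarith)
      (show 0 < k2 by rw [hk2, hU1]; linarith) (hY hU1) e2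

theorem L2 {w1 w2 w3 T U X Y k1 k2 σ p1 p2 q1 q2 : ℝ} (h1 : 0 ≤ w1) (h2 : 0 ≤ w2) (h3 : 0 ≤ w3)
    (hw : w1 + w2 + w3 = 1) (h13 : w1 * w3 = 0) (hT0 : 0 ≤ T) (hU0 : 0 ≤ U) (hT : T ≤ 1)
    (hU : U ≤ 1)
    (hTU : T = 1 ∨ U = 1) (hP : T < 1 → 0 < p2) (hQ : U < 1 → 0 < q2) (hP1 : T = 1 → p2 = 0)
    (hQ1 : U = 1 → q2 = 0) (hPQ : T = 1 → U = 1 → 0 < σ * (p1 - q1)) (hk1 : k1 = σ * (T + U))
    (hk2 : k2 = 0) (hX : 0 < σ * X)
    (e1 : w1 * (p1 - q1) + w2 * k1 + w3 * X = 0)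
    (e2 : w1 * (p2 - q2) + w2 * k2 + w3 * Y = 0) : False := by
  have hσ : 0 < σ * σ := by
    have : σ ≠ 0 := fun h => by rw [h, zero_mul] at hX; exact lt_irrefl _ hX
    exact mul_self_pos.2 this
  have hTU' : 0 < T + U := by
    rcases hTU with h | h <;> rw [h] <;> linarith
  have hk : 0 < σ * k1 := by
    rw [hk1, ← mul_assoc]
    exact mul_pos hσ hTU'
  have e1' : w1 * (σ * (p1 - q1)) + w2 * (σ * k1) + w3 * (σ * X) = 0 := by
    have : w1 * (σ * (p1 - q1)) + w2 * (σ * k1) + w3 * (σ * X) =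
      σ * (w1 * (p1 - q1) + w2 * k1 + w3 * X) := by ring
    rw [this, e1, mul_zero]
  by_cases hT1 : T = 1
  · by_cases hU1 : U = 1
    · exact comb_a h1 h2 h3 hw (hPQ hT1 hU1) hk hX e1'
    · have hq := hQ (lt_of_le_of_ne hU hU1)
      have hp := hP1 hT1
      exact comb_b h1 h2 h3 hw h13 (show p2 - q2 ≠ 0 by rw [hp]; linarith) hk2 hk hX e1' e2
  · have hU1 : U = 1 := hTU.resolve_left hT1
    have hp := hP (lt_of_le_of_ne hT hT1)
    have hq := hQ1 hU1
    exact comb_b h1 h2 h3 hw h13 (show p2 - q2 ≠ 0 by rw [hq]; linarith) hk2 hk hX e1' e2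

/-- a leg: `E 0 = b`, `E 1 = (ρ, 0)`, positive height in between -/
structure Leg (ρ : ℝ) (b : ℝ × ℝ) (E : ℝ → ℝ × ℝ) : Prop where
  cont : Continuous E
  zero : E 0 = b
  one : E 1 = (ρ, 0)
  pos : ∀ t, 0 ≤ t → t < 1 → 0 < (E t).2

theorem tripod2 {ρ₀ ρ₁ ρ₂ : ℝ} (h01 : ρ₀ < ρ₁) (h12 : ρ₁ < ρ₂) {b c : ℝ × ℝ}
    {E0 E1 E2 F0 F1 F2 : ℝ → ℝ × ℝ} (l0 : Leg ρ₀ b E0) (l1 : Leg ρ₁ b E1) (l2 : Leg ρ₂ b E2)
    (m0 : Leg ρ₀ c F0) (m1 : Leg ρ₁ c F1) (m2 : Leg ρ₂ c F2) :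
    ∃ t ∈ Icc (0 : ℝ) 1, ∃ u ∈ Icc (0 : ℝ) 1,
      E0 t = F1 u ∨ E0 t = F2 u ∨ E1 t = F0 u ∨ E1 t = F2 u ∨ E2 t = F0 u ∨ E2 t = F1 u := by
  -- coordinates
  set a0 : ℂ → ℝ := fun z => (z.im - z.re) / 2 with ha0
  set a1 : ℂ → ℝ := fun z => -z.im with ha1
  set a2 : ℂ → ℝ := fun z => (z.re + z.im) / 2 with ha2
  have ca0 : Continuous a0 := by rw [ha0]; fun_prop
  have ca1 : Continuous a1 := by rw [ha1]; fun_prop
  have ca2 : Continuous a2 := by rw [ha2]; fun_prop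
  set s0 : ℂ → ℝ := fun z => a0 z - max (a1 z) (a2 z) with hs0
  set s1 : ℂ → ℝ := fun z => a1 z - max (a0 z) (a2 z) with hs1
  set s2 : ℂ → ℝ := fun z => a2 z - max (a0 z) (a1 z) with hs2
  set v0 : ℂ → ℝ := fun z => min (a1 z) (a2 z) - a0 z with hv0
  set v1 : ℂ → ℝ := fun z => min (a0 z) (a2 z) - a1 z with hv1
  set v2 : ℂ → ℝ := fun z => min (a0 z) (a1 z) - a2 z with hv2
  have cs0 : Continuous s0 := ca0.sub (ca1.max ca2)
  have cs1 : Continuous s1 := ca1.sub (ca0.max ca2)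
  have cs2 : Continuous s2 := ca2.sub (ca0.max ca1)
  have cv0 : Continuous v0 := (ca1.min ca2).sub ca0
  have cv1 : Continuous v1 := (ca0.min ca2).sub ca1
  have cv2 : Continuous v2 := (ca0.min ca1).sub ca2
  set T0 : ℂ → ℝ := fun z => cl (s0 z) with hT0
  set T1 : ℂ → ℝ := fun z => cl (s1 z) with hT1
  set T2 : ℂ → ℝ := fun z => cl (s2 z) with hT2
  set U0 : ℂ → ℝ := fun z => cl (v0 z) with hU0
  set U1 : ℂ → ℝ := fun z => cl (v1 z) with hU1
  set U2 : ℂ → ℝ := fun z => cl (v2 z) with hU2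
  have cT0 : Continuous T0 := cl_cont.comp cs0
  have cT1 : Continuous T1 := cl_cont.comp cs1
  have cT2 : Continuous T2 := cl_cont.comp cs2
  have cU0 : Continuous U0 := cl_cont.comp cv0
  have cU1 : Continuous U1 := cl_cont.comp cv1
  have cU2 : Continuous U2 := cl_cont.comp cv2
  set Φ : ℂ → ℝ × ℝ := fun z => (E0 (T0 z) + E1 (T1 z) + E2 (T2 z) - b - b) -
    (F0 (U0 z) + F1 (U1 z) + F2 (U2 z) - c - c) with hΦ
  have cΦ : Continuous Φ := by
    have k0 := l0.cont.comp cT0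
    have k1 := l1.cont.comp cT1
    have k2 := l2.cont.comp cT2
    have j0 := m0.cont.comp cU0
    have j1 := m1.cont.comp cU1
    have j2 := m2.cont.comp cU2
    exact ((((k0.add k1).add k2).sub continuous_const).sub continuous_const).sub
      ((((j0.add j1).add j2).sub continuous_const).sub continuous_const)
  set k1 : ℂ → ℝ := fun z => T2 z - T0 z + U0 z - U2 z with hk1
  set k2 : ℂ → ℝ := fun z => U1 z * (1 - T0 z - T2 z) - T1 z * (1 - U0 z - U2 z) with hk2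
  have ck1 : Continuous k1 := ((cT2.sub cT0).add cU0).sub cU2
  have ck2 : Continuous k2 := (cU1.mul ((continuous_const.sub cT0).sub cT2)).sub
    (cT1.mul ((continuous_const.sub cU0).sub cU2))
  set r : ℂ → ℝ := fun z => max (max (max (s0 z) (s1 z)) (s2 z)) (max (max (v0 z) (v1 z)) (v2 z))
    with hr
  have cr : Continuous r := ((cs0.max cs1).max cs2).max ((cv0.max cv1).max cv2)
  set α : ℂ → ℝ := fun z => cl (r z - 1) with hα
  set β : ℂ → ℝ := fun z => cl (r z - 2) with hβ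
  have cα : Continuous α := cl_cont.comp (cr.sub continuous_const)
  have cβ : Continuous β := cl_cont.comp (cr.sub continuous_const)
  set w1 : ℂ → ℝ := fun z => (1 - β z) * (1 - α z) with hw1
  set w2 : ℂ → ℝ := fun z => (1 - β z) * α z with hw2
  have cw1 : Continuous w1 := (continuous_const.sub cβ).mul (continuous_const.sub cα)
  have cw2 : Continuous w2 := (continuous_const.sub cβ).mul cα
  set g1 : ℂ → ℝ := fun z => w1 z * (Φ z).1 + w2 z * k1 z + β z * z.re with hg1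
  set g2 : ℂ → ℝ := fun z => w1 z * (Φ z).2 + w2 z * k2 z + β z * z.im with hg2
  have cg1 : Continuous g1 := ((cw1.mul cΦ.fst).add (cw2.mul ck1)).add
    (cβ.mul Complex.continuous_re)
  have cg2 : Continuous g2 := ((cw1.mul cΦ.snd).add (cw2.mul ck2)).add
    (cβ.mul Complex.continuous_im)
  set G : ℂ → ℂ := fun z => ((g1 z : ℝ) : ℂ) + ((g2 z : ℝ) : ℂ) * I with hG
  have cG : Continuous G := (Complex.continuous_ofReal.comp cg1).add
    ((Complex.continuous_ofReal.comp cg2).mul continuous_const)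
  have hout : ∀ z : ℂ, 12 < ‖z‖ → G z = z := by
    intro z hz
    have hr3 : 3 ≤ r z := by
      by_contra h
      have h := not_le.1 h
      simp only [hr, max_lt_iff] at h
      obtain ⟨⟨⟨q0, q1⟩, q2⟩, ⟨p0, p1⟩, p2⟩ := h
      simp only [hs0, hs1, hs2, hv0, hv1, hv2] at q0 q1 q2 p0 p1 p2
      have hre : |z.re| ≤ 6 ∧ |z.im| ≤ 6 := by
        have e0 : a0 z = (z.im - z.re) / 2 := rfl
        have e1 : a1 z = -z.im := rfl
        have e2 : a2 z = (z.re + z.im) / 2 := rfl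
        rcases le_total (a0 z) (a1 z) with x | x <;> rcases le_total (a1 z) (a2 z) with y | y <;>
          rcases le_total (a0 z) (a2 z) with w | w <;>
          simp only [max_eq_left, max_eq_right, min_eq_left, min_eq_right, x, y, w] at q0 q1 q2 p0 p1 p2 <;>
          rw [abs_le, abs_le] <;> refine ⟨⟨?_, ?_⟩, ⟨?_, ?_⟩⟩ <;> linarith
      have := Complex.norm_le_abs_re_add_abs_im z
      linarith [hre.1, hre.2]
    have hβ1 : β z = 1 := cl_one (by linarith)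
    have e1 : g1 z = z.re := by
      simp only [hg1, hw1, hw2, hβ1]; ring
    have e2 : g2 z = z.im := by
      simp only [hg2, hw1, hw2, hβ1]; ring
    simp only [hG, e1, e2]
    exact Complex.re_add_im z
  obtain ⟨z, hz⟩ := zero_of_id_outside cG hout
  have e1 : g1 z = 0 := by
    have := congrArg Complex.re hz
    simpa [hG] using this
  have e2 : g2 z = 0 := by
    have := congrArg Complex.im hz
    simpa [hG] using this
  have wa : 0 ≤ w1 z := mul_nonneg (by linarith [cl_le (r z - 2)]) (by linarith [cl_le (r z - 1)])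
  have wb : 0 ≤ w2 z := mul_nonneg (by linarith [cl_le (r z - 2)]) (cl_nonneg _)
  have wc : 0 ≤ β z := cl_nonneg _
  have ww : w1 z + w2 z + β z = 1 := by simp only [hw1, hw2]; ring
  have w13 : w1 z * β z = 0 := by
    by_cases h : r z ≤ 2
    · have : β z = 0 := cl_zero (by linarith)
      rw [this, mul_zero]
    · have : α z = 1 := cl_one (by linarith [not_le.1 h])
      simp only [hw1, this]; ring
  have xa : a2 z - a0 z = z.re := by simp only [ha0, ha2]; ring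
  have ya : -a1 z = z.im := by simp only [ha1]; ring
  have sm : a0 z + a1 z + a2 z = 0 := by simp only [ha0, ha1, ha2]; ring
  -- facts about one leg
  have unit : ∀ x, cl x ∈ Icc (0 : ℝ) 1 := fun x => ⟨cl_nonneg x, cl_le x⟩
  have zT : ∀ {x}, x ≤ 0 → cl x = 0 := fun h => cl_zero h
  have lp : ∀ {ρ : ℝ} {b : ℝ × ℝ} {E : ℝ → ℝ × ℝ} (l : Leg ρ b E) (x : ℝ),
      (cl x < 1 → 0 < (E (cl x)).2) ∧ (cl x = 1 → (E (cl x)).2 = 0) ∧
      (cl x = 1 → (E (cl x)).1 = ρ) := by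
    intro ρ b E l x
    refine ⟨fun h => l.pos _ (cl_nonneg x) h, fun h => ?_, fun h => ?_⟩
    · rw [h, l.one]
    · rw [h, l.one]
  -- the six orders
  have main : ∀ (s v : ℝ) {ρ ρ' : ℝ} {b' c' : ℝ × ℝ} {E F : ℝ → ℝ × ℝ} (l : Leg ρ b' E)
      (m : Leg ρ' c' F), Φ z = E (cl s) - F (cl v) → (r z < 1 ∨ (1 ≤ s ∨ 1 ≤ v)) →
      (E (cl s) = F (cl v)) ∨ ((cl s = 1 ∨ cl v = 1) ∧
        w1 z * ((E (cl s)).1 - (F (cl v)).1) + w2 z * k1 z + β z * z.re = 0 ∧
        w1 z * ((E (cl s)).2 - (F (cl v)).2) + w2 z * k2 z + β z * z.im = 0) := by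
    intro s v ρ ρ' b' c' E F l m hΦz hcase
    rcases hcase with h | h
    · left
      have hα0 : α z = 0 := cl_zero (by linarith)
      have hβ0 : β z = 0 := cl_zero (by linarith)
      have f1 : (Φ z).1 = 0 := by
        have := e1
        simp only [hg1, hw1, hw2, hα0, hβ0] at this
        linarith
      have f2 : (Φ z).2 = 0 := by
        have := e2
        simp only [hg2, hw1, hw2, hα0, hβ0] at this
        linarith
      have f3 : E (cl s) - F (cl v) = 0 := by rw [← hΦz]; exact Prod.ext f1 f2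
      exact sub_eq_zero.1 f3
    · right
      refine ⟨h.imp cl_one cl_one, ?_, ?_⟩
      · have := e1
        simp only [hg1, hΦz, Prod.fst_sub] at this
        exact this
      · have := e2
        simp only [hg2, hΦz, Prod.snd_sub] at this
        exact this
  have rc : r z < 1 ∨ ((1 ≤ s0 z ∨ 1 ≤ s1 z) ∨ 1 ≤ s2 z) ∨ ((1 ≤ v0 z ∨ 1 ≤ v1 z) ∨ 1 ≤ v2 z) := by
    rcases lt_or_ge (r z) 1 with h | h
    · exact Or.inl h
    · right
      simpa only [hr, le_max_iff] using h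
  have d0 : s0 z = a0 z - max (a1 z) (a2 z) := rfl
  have d1 : s1 z = a1 z - max (a0 z) (a2 z) := rfl
  have d2 : s2 z = a2 z - max (a0 z) (a1 z) := rfl
  have f0 : v0 z = min (a1 z) (a2 z) - a0 z := rfl
  have f1 : v1 z = min (a0 z) (a2 z) - a1 z := rfl
  have f2 : v2 z = min (a0 z) (a1 z) - a2 z := rfl
  have S0 : (a0 z ≤ a1 z ∨ a0 z ≤ a2 z) → s0 z ≤ 0 := by
    rintro (h | h)
    · rw [d0]; linarith [le_max_left (a1 z) (a2 z)]
    · rw [d0]; linarith [le_max_right (a1 z) (a2 z)]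
  have S1 : (a1 z ≤ a0 z ∨ a1 z ≤ a2 z) → s1 z ≤ 0 := by
    rintro (h | h)
    · rw [d1]; linarith [le_max_left (a0 z) (a2 z)]
    · rw [d1]; linarith [le_max_right (a0 z) (a2 z)]
  have S2 : (a2 z ≤ a0 z ∨ a2 z ≤ a1 z) → s2 z ≤ 0 := by
    rintro (h | h)
    · rw [d2]; linarith [le_max_left (a0 z) (a1 z)]
    · rw [d2]; linarith [le_max_right (a0 z) (a1 z)]
  have V0 : (a1 z ≤ a0 z ∨ a2 z ≤ a0 z) → v0 z ≤ 0 := by
    rintro (h | h)
    · rw [f0]; linarith [min_le_left (a1 z) (a2 z)]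
    · rw [f0]; linarith [min_le_right (a1 z) (a2 z)]
  have V1 : (a0 z ≤ a1 z ∨ a2 z ≤ a1 z) → v1 z ≤ 0 := by
    rintro (h | h)
    · rw [f1]; linarith [min_le_left (a0 z) (a2 z)]
    · rw [f1]; linarith [min_le_right (a0 z) (a2 z)]
  have V2 : (a0 z ≤ a2 z ∨ a1 z ≤ a2 z) → v2 z ≤ 0 := by
    rintro (h | h)
    · rw [f2]; linarith [min_le_left (a0 z) (a1 z)]
    · rw [f2]; linarith [min_le_right (a0 z) (a1 z)]
  have g0 : 1 ≤ s0 z → a1 z + 1 ≤ a0 z ∧ a2 z + 1 ≤ a0 z := fun h => by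
    rw [d0] at h; exact ⟨by linarith [le_max_left (a1 z) (a2 z)],
      by linarith [le_max_right (a1 z) (a2 z)]⟩
  have g1' : 1 ≤ s1 z → a0 z + 1 ≤ a1 z ∧ a2 z + 1 ≤ a1 z := fun h => by
    rw [d1] at h; exact ⟨by linarith [le_max_left (a0 z) (a2 z)],
      by linarith [le_max_right (a0 z) (a2 z)]⟩
  have g2' : 1 ≤ s2 z → a0 z + 1 ≤ a2 z ∧ a1 z + 1 ≤ a2 z := fun h => by
    rw [d2] at h; exact ⟨by linarith [le_max_left (a0 z) (a1 z)],
      by linarith [le_max_right (a0 z) (a1 z)]⟩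
  have j0 : 1 ≤ v0 z → a0 z + 1 ≤ a1 z ∧ a0 z + 1 ≤ a2 z := fun h => by
    rw [f0] at h; exact ⟨by linarith [min_le_left (a1 z) (a2 z)],
      by linarith [min_le_right (a1 z) (a2 z)]⟩
  have j1 : 1 ≤ v1 z → a1 z + 1 ≤ a0 z ∧ a1 z + 1 ≤ a2 z := fun h => by
    rw [f1] at h; exact ⟨by linarith [min_le_left (a0 z) (a2 z)],
      by linarith [min_le_right (a0 z) (a2 z)]⟩
  have j2 : 1 ≤ v2 z → a2 z + 1 ≤ a0 z ∧ a2 z + 1 ≤ a1 z := fun h => by
    rw [f2] at h; exact ⟨by linarith [min_le_left (a0 z) (a1 z)],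
      by linarith [min_le_right (a0 z) (a1 z)]⟩
  have c20 : a0 z ≤ a1 z → a1 z ≤ a2 z → ∃ t ∈ Icc (0 : ℝ) 1, ∃ u ∈ Icc (0 : ℝ) 1,
      E0 t = F1 u ∨ E0 t = F2 u ∨ E1 t = F0 u ∨ E1 t = F2 u ∨ E2 t = F0 u ∨ E2 t = F1 u := by
    intro x y
    have y0 : cl (s0 z) = 0 := cl_zero (S0 (Or.inl x))
    have y1 : cl (s1 z) = 0 := cl_zero (S1 (Or.inr y))
    have y2 : cl (v1 z) = 0 := cl_zero (V1 (Or.inl x))
    have y3 : cl (v2 z) = 0 := cl_zero (V2 (Or.inr y))
    have hΦz : Φ z = E2 (cl (s2 z)) - F0 (cl (v0 z)) := by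
      simp only [hΦ, hT0, hT1, hT2, hU0, hU1, hU2, y0, y1, y2, y3, l0.zero, l1.zero, m1.zero,
        m2.zero]
      abel
    have hc : r z < 1 ∨ (1 ≤ s2 z ∨ 1 ≤ v0 z) := by
      have := S0 (Or.inl x); have := S1 (Or.inr y); have := V1 (Or.inl x)
      have := V2 (Or.inr y)
      rcases rc with h | ((h | h) | h) | ((h | h) | h)
      · exact Or.inl h
      · linarith
      · linarith
      · exact Or.inr (Or.inl h)
      · exact Or.inr (Or.inr h)
      · linarith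
      · linarith
    rcases main (s2 z) (v0 z) l2 m0 hΦz hc with h | ⟨hTU, q1, q2⟩
    · exact ⟨_, unit _, _, unit _, Or.inr (Or.inr (Or.inr (Or.inr (Or.inl h))))⟩
    · exfalso
      have lE := lp l2 (s2 z)
      have lF := lp m0 (v0 z)
      refine L2 (σ := 1) wa wb wc ww w13 (cl_nonneg _) (cl_nonneg _) (cl_le _) (cl_le _) hTU lE.1 lF.1
        lE.2.1 lF.2.1 ?_ ?_ ?_ ?_ q1 q2
      · intro h h'
        rw [lE.2.2 h, lF.2.2 h']; linarith
      · simp only [hk1, hT0, hT2, hU0, hU2, y0, y3]; ring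
      · simp only [hk2, hT0, hT1, hT2, hU0, hU1, hU2, y0, y1, y2, y3]; ring
      · rw [← xa]
        rcases hTU with h | h
        · linarith [(g2' (le_of_cl_eq h)).1]
        · linarith [(j0 (le_of_cl_eq h)).2]
  have c02 : a2 z ≤ a1 z → a1 z ≤ a0 z → ∃ t ∈ Icc (0 : ℝ) 1, ∃ u ∈ Icc (0 : ℝ) 1,
      E0 t = F1 u ∨ E0 t = F2 u ∨ E1 t = F0 u ∨ E1 t = F2 u ∨ E2 t = F0 u ∨ E2 t = F1 u := by
    intro x y
    have y0 : cl (s2 z) = 0 := cl_zero (S2 (Or.inr x))
    have y1 : cl (s1 z) = 0 := cl_zero (S1 (Or.inl y))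
    have y2 : cl (v1 z) = 0 := cl_zero (V1 (Or.inr x))
    have y3 : cl (v0 z) = 0 := cl_zero (V0 (Or.inl y))
    have hΦz : Φ z = E0 (cl (s0 z)) - F2 (cl (v2 z)) := by
      simp only [hΦ, hT0, hT1, hT2, hU0, hU1, hU2, y0, y1, y2, y3, l2.zero, l1.zero, m1.zero,
        m0.zero]
      abel
    have hc : r z < 1 ∨ (1 ≤ s0 z ∨ 1 ≤ v2 z) := by
      have := S2 (Or.inr x); have := S1 (Or.inl y); have := V1 (Or.inr x)
      have := V0 (Or.inl y)
      rcases rc with h | ((h | h) | h) | ((h | h) | h)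
      · exact Or.inl h
      · exact Or.inr (Or.inl h)
      · linarith
      · linarith
      · linarith
      · linarith
      · exact Or.inr (Or.inr h)
    rcases main (s0 z) (v2 z) l0 m2 hΦz hc with h | ⟨hTU, q1, q2⟩
    · exact ⟨_, unit _, _, unit _, Or.inr (Or.inl h)⟩
    · exfalso
      have lE := lp l0 (s0 z)
      have lF := lp m2 (v2 z)
      refine L2 (σ := -1) wa wb wc ww w13 (cl_nonneg _) (cl_nonneg _) (cl_le _) (cl_le _) hTU lE.1 lF.1
        lE.2.1 lF.2.1 ?_ ?_ ?_ ?_ q1 q2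
      · intro h h'
        rw [lE.2.2 h, lF.2.2 h']; linarith
      · simp only [hk1, hT0, hT2, hU0, hU2, y0, y3]; ring
      · simp only [hk2, hT0, hT1, hT2, hU0, hU1, hU2, y0, y1, y2, y3]; ring
      · rw [← xa]
        rcases hTU with h | h
        · linarith [(g0 (le_of_cl_eq h)).2]
        · linarith [(j2 (le_of_cl_eq h)).1]
  have c01 : a1 z ≤ a2 z → a2 z ≤ a0 z → ∃ t ∈ Icc (0 : ℝ) 1, ∃ u ∈ Icc (0 : ℝ) 1,
      E0 t = F1 u ∨ E0 t = F2 u ∨ E1 t = F0 u ∨ E1 t = F2 u ∨ E2 t = F0 u ∨ E2 t = F1 u := by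
    intro x y
    have y0 : cl (s1 z) = 0 := cl_zero (S1 (Or.inr x))
    have y1 : cl (s2 z) = 0 := cl_zero (S2 (Or.inl y))
    have y2 : cl (v2 z) = 0 := cl_zero (V2 (Or.inr x))
    have y3 : cl (v0 z) = 0 := cl_zero (V0 (Or.inr y))
    have hΦz : Φ z = E0 (cl (s0 z)) - F1 (cl (v1 z)) := by
      simp only [hΦ, hT0, hT1, hT2, hU0, hU1, hU2, y0, y1, y2, y3, l2.zero, l1.zero, m2.zero,
        m0.zero]
      abel
    have hc : r z < 1 ∨ (1 ≤ s0 z ∨ 1 ≤ v1 z) := by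
      have := S1 (Or.inr x); have := S2 (Or.inl y); have := V2 (Or.inr x)
      have := V0 (Or.inr y)
      rcases rc with h | ((h | h) | h) | ((h | h) | h)
      · exact Or.inl h
      · exact Or.inr (Or.inl h)
      · linarith
      · linarith
      · linarith
      · exact Or.inr (Or.inr h)
      · linarith
    rcases main (s0 z) (v1 z) l0 m1 hΦz hc with h | ⟨hTU, q1, q2⟩
    · exact ⟨_, unit _, _, unit _, Or.inl h⟩
    · exfalso
      have lE := lp l0 (s0 z)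
      have lF := lp m1 (v1 z)
      refine L1 (σ := -1) wa wb wc ww w13 (cl_le _) (cl_le _) hTU lE.1 lF.1
        lE.2.1 lF.2.1 ?_ ?_ ?_ ?_ ?_ q1 q2
      · intro h h'
        rw [lE.2.2 h, lF.2.2 h']; linarith
      · simp only [hk1, hT0, hT2, hU0, hU2, y1, y2, y3]; ring
      · simp only [hk2, hT0, hT1, hT2, hU0, hU1, hU2, y0, y1, y2, y3]; ring
      · intro h
        rw [← xa]
        linarith [(g0 (le_of_cl_eq h)).2]
      · intro h
        rw [← ya]
        linarith [(j1 (le_of_cl_eq h)).1, (j1 (le_of_cl_eq h)).2]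
  have c21 : a1 z ≤ a0 z → a0 z ≤ a2 z → ∃ t ∈ Icc (0 : ℝ) 1, ∃ u ∈ Icc (0 : ℝ) 1,
      E0 t = F1 u ∨ E0 t = F2 u ∨ E1 t = F0 u ∨ E1 t = F2 u ∨ E2 t = F0 u ∨ E2 t = F1 u := by
    intro x y
    have y0 : cl (s1 z) = 0 := cl_zero (S1 (Or.inl x))
    have y1 : cl (s0 z) = 0 := cl_zero (S0 (Or.inr y))
    have y2 : cl (v2 z) = 0 := cl_zero (V2 (Or.inl y))
    have y3 : cl (v0 z) = 0 := cl_zero (V0 (Or.inl x))
    have hΦz : Φ z = E2 (cl (s2 z)) - F1 (cl (v1 z)) := by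
      simp only [hΦ, hT0, hT1, hT2, hU0, hU1, hU2, y0, y1, y2, y3, l0.zero, l1.zero, m2.zero,
        m0.zero]
      abel
    have hc : r z < 1 ∨ (1 ≤ s2 z ∨ 1 ≤ v1 z) := by
      have := S1 (Or.inl x); have := S0 (Or.inr y); have := V2 (Or.inl y)
      have := V0 (Or.inl x)
      rcases rc with h | ((h | h) | h) | ((h | h) | h)
      · exact Or.inl h
      · linarith
      · linarith
      · exact Or.inr (Or.inl h)
      · linarith
      · exact Or.inr (Or.inr h)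
      · linarith
    rcases main (s2 z) (v1 z) l2 m1 hΦz hc with h | ⟨hTU, q1, q2⟩
    · exact ⟨_, unit _, _, unit _, Or.inr (Or.inr (Or.inr (Or.inr (Or.inr h))))⟩
    · exfalso
      have lE := lp l2 (s2 z)
      have lF := lp m1 (v1 z)
      refine L1 (σ := 1) wa wb wc ww w13 (cl_le _) (cl_le _) hTU lE.1 lF.1
        lE.2.1 lF.2.1 ?_ ?_ ?_ ?_ ?_ q1 q2
      · intro h h'
        rw [lE.2.2 h, lF.2.2 h']; linarith
      · simp only [hk1, hT0, hT2, hU0, hU2, y1, y2, y3]; ring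
      · simp only [hk2, hT0, hT1, hT2, hU0, hU1, hU2, y0, y1, y2, y3]; ring
      · intro h
        rw [← xa]
        linarith [(g2' (le_of_cl_eq h)).1]
      · intro h
        rw [← ya]
        linarith [(j1 (le_of_cl_eq h)).1, (j1 (le_of_cl_eq h)).2]
  have c10 : a0 z ≤ a2 z → a2 z ≤ a1 z → ∃ t ∈ Icc (0 : ℝ) 1, ∃ u ∈ Icc (0 : ℝ) 1,
      E0 t = F1 u ∨ E0 t = F2 u ∨ E1 t = F0 u ∨ E1 t = F2 u ∨ E2 t = F0 u ∨ E2 t = F1 u := by
    intro x y
    have y0 : cl (s0 z) = 0 := cl_zero (S0 (Or.inr x))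
    have y1 : cl (s2 z) = 0 := cl_zero (S2 (Or.inr y))
    have y2 : cl (v2 z) = 0 := cl_zero (V2 (Or.inl x))
    have y3 : cl (v1 z) = 0 := cl_zero (V1 (Or.inr y))
    have hΦz : Φ z = E1 (cl (s1 z)) - F0 (cl (v0 z)) := by
      simp only [hΦ, hT0, hT1, hT2, hU0, hU1, hU2, y0, y1, y2, y3, l0.zero, l2.zero, m2.zero,
        m1.zero]
      abel
    have hc : r z < 1 ∨ (1 ≤ s1 z ∨ 1 ≤ v0 z) := by
      have := S0 (Or.inr x); have := S2 (Or.inr y); have := V2 (Or.inl x)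
      have := V1 (Or.inr y)
      rcases rc with h | ((h | h) | h) | ((h | h) | h)
      · exact Or.inl h
      · linarith
      · exact Or.inr (Or.inl h)
      · linarith
      · exact Or.inr (Or.inr h)
      · linarith
      · linarith
    rcases main (s1 z) (v0 z) l1 m0 hΦz hc with h | ⟨hTU, q1, q2⟩
    · exact ⟨_, unit _, _, unit _, Or.inr (Or.inr (Or.inl h))⟩
    · exfalso
      have lE := lp l1 (s1 z)
      have lF := lp m0 (v0 z)
      refine L1 (σ := -1) (k1 := - k1 z) (k2 := - k2 z) (X := - z.re) (Y := - z.im) wa wb wc ww w13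
        (cl_le _) (cl_le _) hTU.symm lF.1 lE.1 lF.2.1 lE.2.1 ?_ ?_ ?_ ?_ ?_
        (p1 := (F0 (cl (v0 z))).1) (q1 := (E1 (cl (s1 z))).1) (by linarith) (by linarith)
      · intro h h'
        rw [lF.2.2 h, lE.2.2 h']; linarith
      · simp only [hk1, hT0, hT2, hU0, hU2, y0, y1, y2]; ring
      · simp only [hk2, hT0, hT1, hT2, hU0, hU1, hU2, y0, y1, y2, y3]; ring
      · intro h
        rw [← xa]
        linarith [(j0 (le_of_cl_eq h)).2]
      · intro h
        rw [← ya]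
        linarith [(g1' (le_of_cl_eq h)).1, (g1' (le_of_cl_eq h)).2]
  have c12 : a2 z ≤ a0 z → a0 z ≤ a1 z → ∃ t ∈ Icc (0 : ℝ) 1, ∃ u ∈ Icc (0 : ℝ) 1,
      E0 t = F1 u ∨ E0 t = F2 u ∨ E1 t = F0 u ∨ E1 t = F2 u ∨ E2 t = F0 u ∨ E2 t = F1 u := by
    intro x y
    have y0 : cl (s0 z) = 0 := cl_zero (S0 (Or.inl y))
    have y1 : cl (s2 z) = 0 := cl_zero (S2 (Or.inl x))
    have y2 : cl (v0 z) = 0 := cl_zero (V0 (Or.inr x))
    have y3 : cl (v1 z) = 0 := cl_zero (V1 (Or.inl y))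
    have hΦz : Φ z = E1 (cl (s1 z)) - F2 (cl (v2 z)) := by
      simp only [hΦ, hT0, hT1, hT2, hU0, hU1, hU2, y0, y1, y2, y3, l0.zero, l2.zero, m0.zero,
        m1.zero]
      abel
    have hc : r z < 1 ∨ (1 ≤ s1 z ∨ 1 ≤ v2 z) := by
      have := S0 (Or.inl y); have := S2 (Or.inl x); have := V0 (Or.inr x)
      have := V1 (Or.inl y)
      rcases rc with h | ((h | h) | h) | ((h | h) | h)
      · exact Or.inl h
      · linarith
      · exact Or.inr (Or.inl h)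
      · linarith
      · linarith
      · linarith
      · exact Or.inr (Or.inr h)
    rcases main (s1 z) (v2 z) l1 m2 hΦz hc with h | ⟨hTU, q1, q2⟩
    · exact ⟨_, unit _, _, unit _, Or.inr (Or.inr (Or.inr (Or.inl h)))⟩
    · exfalso
      have lE := lp l1 (s1 z)
      have lF := lp m2 (v2 z)
      refine L1 (σ := 1) (k1 := - k1 z) (k2 := - k2 z) (X := - z.re) (Y := - z.im) wa wb wc ww w13
        (cl_le _) (cl_le _) hTU.symm lF.1 lE.1 lF.2.1 lE.2.1 ?_ ?_ ?_ ?_ ?_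
        (p1 := (F2 (cl (v2 z))).1) (q1 := (E1 (cl (s1 z))).1) (by linarith) (by linarith)
      · intro h h'
        rw [lF.2.2 h, lE.2.2 h']; linarith
      · simp only [hk1, hT0, hT2, hU0, hU2, y0, y1, y2]; ring
      · simp only [hk2, hT0, hT1, hT2, hU0, hU1, hU2, y0, y1, y2, y3]; ring
      · intro h
        rw [← xa]
        linarith [(j2 (le_of_cl_eq h)).1]
      · intro h
        rw [← ya]
        linarith [(g1' (le_of_cl_eq h)).1, (g1' (le_of_cl_eq h)).2]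
  rcases le_total (a0 z) (a1 z) with x | x <;> rcases le_total (a1 z) (a2 z) with y | y <;>
    rcases le_total (a0 z) (a2 z) with w | w
  · exact c20 x y
  · exact c20 x y
  · exact c10 w y
  · exact c12 w x
  · exact c21 x w
  · exact c01 y w
  · exact c02 y x
  · exact c02 y x

end Vale.Agent.P040
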