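import Vale.Agent.P040.TopDefs
import Vale.Agent.P040.Tripod2
import Vale.Agent.P040.Mantel

/-! P040: drawings with one class on a line which is crossed by no edge, the lower bound. -/

open Set unitInterval

namespace Vale.Agent.P040

namespace LineDrawing

variable {m n : ℕ} (D : LineDrawing m n)

theorem meet_cross {i k : Fin m} {j l : Fin n} (hik : i ≠ k) (hjl : j ≠ l)
    (h : ∃ s t, D.e i j s = D.e k l t) : D.Cross (i, j) (k, l) := by
  obtain ⟨s, t, h⟩ := h
  have hh : ∀ (i : Fin m) (j : Fin n) (s : I), s ≠ 0 → (D.e i j s).2 ≠ 0 := by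
    intro i j s hs h0
    have := D.side i j s hs
    rw [h0, zero_mul] at this
    exact lt_irrefl _ this
  have hs0 : s ≠ 0 := by
    intro hs
    have h1 : (D.e k l t).2 = 0 := by rw [← h, hs, (D.e i j).source]
    have ht : t = 0 := by
      by_contra h'
      exact hh k l t h' h1
    rw [hs, ht, (D.e i j).source, (D.e k l).source] at h
    exact hik (D.r_injective (congrArg Prod.fst h))
  have ht0 : t ≠ 0 := by
    intro ht
    have h1 : (D.e i j s).2 = 0 := by rw [h, ht, (D.e k l).source]
    exact hh i j s hs0 h1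
  have hs1 : s ≠ 1 := by
    intro hs
    rw [hs, (D.e i j).target] at h
    have ht := D.avoid k l j t h.symm
    rw [ht, (D.e k l).target] at h
    exact hjl (D.b_injective h)
  have ht1 : t ≠ 1 := by
    intro ht
    rw [ht, (D.e k l).target] at h
    exact hs1 (D.avoid i j l s h)
  exact ⟨s, t, hs0, hs1, ht0, ht1, h⟩

theorem three {i k r : Fin m} (hik : D.r i < D.r k) (hkr : D.r k < D.r r) {j l : Fin n}
    (hjl : j ≠ l) (hs : 0 < (D.b j).2 * (D.b l).2) :
    (D.Cross (i, j) (k, l) ∨ D.Cross (k, j) (i, l)) ∨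
    (D.Cross (k, j) (r, l) ∨ D.Cross (r, j) (k, l)) ∨
    (D.Cross (i, j) (r, l) ∨ D.Cross (r, j) (i, l)) := by
  set ε : ℝ := (D.b j).2 with hε
  have hε0 : ε ≠ 0 := fun h => by rw [h, zero_mul] at hs; exact lt_irrefl _ hs
  have hne : ∀ {x y : Fin m}, D.r x < D.r y → x ≠ y := fun h h' => by
    rw [h'] at h; exact lt_irrefl _ h
  set g : Fin m → Fin n → ℝ → ℝ × ℝ := fun x y t =>
    (((D.e x y).extend (1 - t)).1, ε * ((D.e x y).extend (1 - t)).2) with hg
  have sgn : ∀ (x : Fin m) (u : Fin n), u = j ∨ u = l → ∀ t : I, t ≠ 0 →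
      0 < ε * (D.e x u t).2 := by
    intro x u hu t ht
    have h1 := D.side x u t ht
    have h2 : 0 < ε * (D.b u).2 := by
      rcases hu with rfl | rfl
      · exact mul_self_pos.2 hε0
      · exact hs
    by_contra hcon
    have h3 := not_lt.1 hcon
    rcases lt_or_gt_of_ne hε0 with h | h
    · have h4 : (D.b u).2 < 0 := by nlinarith
      have h5 : (D.e x u t).2 < 0 := by nlinarith
      nlinarith
    · have h4 : 0 < (D.b u).2 := by nlinarith
      have h5 : 0 < (D.e x u t).2 := by nlinarith
      nlinarith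
  have leg : ∀ (x : Fin m) (u : Fin n), u = j ∨ u = l →
      Leg (D.r x) ((D.b u).1, ε * (D.b u).2) (g x u) := by
    intro x u hu
    have hc : Continuous fun t : ℝ => (D.e x u).extend (1 - t) :=
      (D.e x u).continuous_extend.comp (continuous_const.sub continuous_id)
    refine ⟨?_, ?_, ?_, ?_⟩
    · exact hc.fst.prodMk (continuous_const.mul hc.snd)
    · simp [hg]
    · simp [hg]
    · intro t h0 h1
      have hm : 1 - t ∈ Icc (0 : ℝ) 1 := ⟨by linarith, by linarith⟩
      show 0 < ε * ((D.e x u).extend (1 - t)).2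
      rw [Path.extend_apply _ hm]
      refine sgn x u hu _ ?_
      intro h
      have := congrArg Subtype.val h
      simp only [Icc.coe_zero] at this
      linarith
  have inj : ∀ (x y : Fin m) (u v : Fin n) (t s : ℝ), t ∈ Icc (0 : ℝ) 1 → s ∈ Icc (0 : ℝ) 1 →
      g x u t = g y v s → ∃ t' s', D.e x u t' = D.e y v s' := by
    intro x y u v t s ht hs' h
    have hm : 1 - t ∈ Icc (0 : ℝ) 1 := ⟨by linarith [ht.2], by linarith [ht.1]⟩
    have hm' : 1 - s ∈ Icc (0 : ℝ) 1 := ⟨by linarith [hs'.2], by linarith [hs'.1]⟩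
    simp only [hg, Prod.mk.injEq] at h
    rw [Path.extend_apply _ hm, Path.extend_apply _ hm'] at h
    exact ⟨_, _, Prod.ext h.1 (mul_left_cancel₀ hε0 h.2)⟩
  obtain ⟨t, ht, u, hu, key⟩ := tripod2 hik hkr (leg i j (Or.inl rfl)) (leg k j (Or.inl rfl))
    (leg r j (Or.inl rfl)) (leg i l (Or.inr rfl)) (leg k l (Or.inr rfl)) (leg r l (Or.inr rfl))
  rcases key with h | h | h | h | h | h
  · exact Or.inl (Or.inl (D.meet_cross (hne hik) hjl (inj _ _ _ _ _ _ ht hu h)))
  · exact Or.inr (Or.inr (Or.inl (D.meet_cross (hne (hik.trans hkr)) hjl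
      (inj _ _ _ _ _ _ ht hu h))))
  · exact Or.inl (Or.inr (D.meet_cross (hne hik).symm hjl (inj _ _ _ _ _ _ ht hu h)))
  · exact Or.inr (Or.inl (Or.inl (D.meet_cross (hne hkr) hjl (inj _ _ _ _ _ _ ht hu h))))
  · exact Or.inr (Or.inr (Or.inr (D.meet_cross (hne (hik.trans hkr)).symm hjl
      (inj _ _ _ _ _ _ ht hu h))))
  · exact Or.inr (Or.inl (Or.inr (D.meet_cross (hne hkr).symm hjl (inj _ _ _ _ _ _ ht hu h))))

open Finset in
theorem main : d m * d n ≤ D.crossings.ncard := by
  classical
  set C : Finset ((Fin m × Fin n) × (Fin m × Fin n)) :=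
    Finset.univ.filter (fun p => p ∈ D.crossings) with hC
  have hCn : D.crossings.ncard = C.card := by
    rw [← Set.ncard_coe_finset]
    congr 1
    ext p
    simp [hC]
  rw [hCn]
  set T : Finset (Fin n × Fin n) :=
    Finset.univ.filter (fun q => q.1 < q.2 ∧ (0 < (D.b q.1).2 ↔ 0 < (D.b q.2).2)) with hT
  have hTc : d n ≤ T.card := pairs (fun j => 0 < (D.b j).2)
  have hfib : C.card = ∑ q : Fin n × Fin n, (C.filter (fun p => (p.1.2, p.2.2) = q)).card :=
    card_eq_sum_card_fiberwise (fun p _ => mem_coe.2 (Finset.mem_univ _))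
  have hone : ∀ q ∈ T, d m ≤ (C.filter (fun p => (p.1.2, p.2.2) = q)).card := by
    rintro ⟨j, l⟩ hq
    rw [hT, mem_filter] at hq
    obtain ⟨-, hjl, hs⟩ := hq
    by_cases hm : m ≤ 2
    · have : d m = 0 := by
        unfold d
        have : (m - 1) / 2 = 0 := by omega
        rw [this, mul_zero]
      rw [this]
      exact Nat.zero_le _
    · have i0 : Fin m := ⟨0, by omega⟩
      have hb : ∀ u, (D.b u).2 ≠ 0 := by
        intro u h0
        have := D.side i0 u 1 one_ne_zero
        rw [h0, mul_zero] at this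
        exact lt_irrefl _ this
      have hprod : 0 < (D.b j).2 * (D.b l).2 := by
        rcases lt_or_gt_of_ne (hb j) with h | h
        · have h2 : (D.b l).2 < 0 := lt_of_le_of_ne (not_lt.1 fun h' => by
            have := hs.2 h'; linarith) (hb l)
          nlinarith
        · have := hs.1 h
          positivity
      set S : Finset (Fin m × Fin m) :=
        Finset.univ.filter (fun q => q.1 ≠ q.2 ∧ D.Cross (q.1, j) (q.2, l)) with hS
      have hmem : ∀ {x y : Fin m}, x ≠ y → D.Cross (x, j) (y, l) → (x, y) ∈ S := by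
        intro x y hxy h
        rw [hS, mem_filter]
        exact ⟨Finset.mem_univ _, hxy, h⟩
      have hlt : ∀ x y z : Fin m, x ≠ y → y ≠ z → x ≠ z → D.r x < D.r y → D.r y < D.r z →
          ((x, y) ∈ S ∨ (y, x) ∈ S) ∨ ((y, z) ∈ S ∨ (z, y) ∈ S) ∨ ((x, z) ∈ S ∨ (z, x) ∈ S) := by
        intro x y z hxy hyz hxz h1 h2
        rcases D.three h1 h2 hjl.ne hprod with (h | h) | (h | h) | (h | h)
        · exact Or.inl (Or.inl (hmem hxy h))
        · exact Or.inl (Or.inr (hmem hxy.symm h))
        · exact Or.inr (Or.inl (Or.inl (hmem hyz h)))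
        · exact Or.inr (Or.inl (Or.inr (hmem hyz.symm h)))
        · exact Or.inr (Or.inr (Or.inl (hmem hxz h)))
        · exact Or.inr (Or.inr (Or.inr (hmem hxz.symm h)))
      have hSc : d m ≤ S.card := by
        refine mantel S fun x y z hxy hyz hxz => ?_
        have e1 : D.r x ≠ D.r y := fun h => hxy (D.r_injective h)
        have e2 : D.r y ≠ D.r z := fun h => hyz (D.r_injective h)
        have e3 : D.r x ≠ D.r z := fun h => hxz (D.r_injective h)
        rcases lt_or_gt_of_ne e1 with a | a <;> rcases lt_or_gt_of_ne e2 with b | b <;>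
          rcases lt_or_gt_of_ne e3 with c | c
        · exact hlt x y z hxy hyz hxz a b
        · exact absurd c (not_lt.2 (a.trans b).le)
        · rcases hlt x z y hxz hyz.symm hxy c b with h | h | h
          · exact Or.inr (Or.inr h)
          · exact Or.inr (Or.inl h.symm)
          · exact Or.inl h
        · rcases hlt z x y hxz.symm hxy hyz.symm c a with h | h | h
          · exact Or.inr (Or.inr h.symm)
          · exact Or.inl h
          · exact Or.inr (Or.inl h.symm)
        · rcases hlt y x z hxy.symm hxz hyz a c with h | h | h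
          · exact Or.inl h.symm
          · exact Or.inr (Or.inr h)
          · exact Or.inr (Or.inl h)
        · rcases hlt y z x hyz hxz.symm hxy.symm b c with h | h | h
          · exact Or.inr (Or.inl h)
          · exact Or.inr (Or.inr h.symm)
          · exact Or.inl h.symm
        · exact absurd c (not_lt.2 (b.trans a).le)
        · rcases hlt z y x hyz.symm hxy.symm hxz.symm b a with h | h | h
          · exact Or.inr (Or.inl h.symm)
          · exact Or.inl h.symm
          · exact Or.inr (Or.inr h.symm)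
      refine hSc.trans (card_le_card_of_injOn (fun q => ((q.1, j), (q.2, l))) ?_ ?_)
      · intro q hq
        rw [mem_coe, hS, mem_filter] at hq
        rw [mem_coe]
        simp only [hC, mem_filter, Finset.mem_univ, true_and]
        exact ⟨⟨hq.2.1, hjl, hq.2.2⟩, trivial⟩
      · intro q _ q' _ h
        simp only [Prod.mk.injEq] at h
        exact Prod.ext h.1.1 h.2.1
  rw [hfib]
  calc d m * d n ≤ d m * T.card := Nat.mul_le_mul_left _ hTc
    _ = ∑ q ∈ T, d m := by rw [sum_const, smul_eq_mul, mul_comm]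
    _ ≤ ∑ q ∈ T, (C.filter (fun p => (p.1.2, p.2.2) = q)).card := sum_le_sum hone
    _ ≤ ∑ q : Fin n × Fin n, (C.filter (fun p => (p.1.2, p.2.2) = q)).card :=
      sum_le_sum_of_subset (Finset.subset_univ _)

end LineDrawing

end Vale.Agent.P040
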