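import Mathlib

/-! P040: drawings with one class on a line which is crossed by no edge. -/

namespace Vale.Agent.P040

/-- A drawing of `K_{m,n}` in the plane such that the vertices `(r i, 0)` of the first class lie on
the line `y = 0` and no edge crosses this line: the edge `e i j` is a continuous curve from
`(r i, 0)` to `b j` which, apart from its first point, stays on the side of the line of `b j`. No
edge passes through a vertex `b k` before its end. (Any two edges may meet arbitrarily often.) -/
structure LineDrawing (m n : ℕ) where
  r : Fin m → ℝ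
  b : Fin n → ℝ × ℝ
  e : ∀ i j, Path ((r i, 0) : ℝ × ℝ) (b j)
  r_injective : Function.Injective r
  b_injective : Function.Injective b
  side : ∀ i j t, t ≠ 0 → 0 < (e i j t).2 * (b j).2
  avoid : ∀ i j k t, e i j t = b k → t = 1

/-- The edges `p` and `p'` have a common interior point. -/
def LineDrawing.Cross {m n : ℕ} (D : LineDrawing m n) (p p' : Fin m × Fin n) : Prop :=
  ∃ s t : unitInterval, s ≠ 0 ∧ s ≠ 1 ∧ t ≠ 0 ∧ t ≠ 1 ∧ D.e p.1 p.2 s = D.e p'.1 p'.2 t

/-- The crossing pairs of independent edges; every unordered pair is listed once. -/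
def LineDrawing.crossings {m n : ℕ} (D : LineDrawing m n) :
    Set ((Fin m × Fin n) × (Fin m × Fin n)) :=
  {p | p.1.1 ≠ p.2.1 ∧ p.1.2 < p.2.2 ∧ D.Cross p.1 p.2}

end Vale.Agent.P040
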