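import Vale.Agent.P040.TwoPaths

/-! P040: two tripods in a half-plane with the same three feet. -/

open Set unitInterval

namespace Vale.Agent.P040

/-- vertical segment -/
noncomputable def vpath (x a c : ℝ) : Path ((x, a) : ℝ × ℝ) (x, c) where
  toFun t := (x, a + t * (c - a))
  continuous_toFun := by fun_prop
  source' := by simp
  target' := by simp

/-- horizontal segment -/
noncomputable def hpath (y a c : ℝ) : Path ((a, y) : ℝ × ℝ) (c, y) where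
  toFun t := (a + t * (c - a), y)
  continuous_toFun := by fun_prop
  source' := by simp
  target' := by simp

theorem mem_vpath {x a c : ℝ} (hac : a ≤ c) {w : ℝ × ℝ} (h : w ∈ range (vpath x a c)) :
    w.1 = x ∧ a ≤ w.2 ∧ w.2 ≤ c := by
  obtain ⟨t, rfl⟩ := h
  have h0 := t.2.1
  have h1 := t.2.2
  refine ⟨rfl, ?_, ?_⟩
  · show a ≤ a + t * (c - a)
    nlinarith
  · show a + t * (c - a) ≤ c
    nlinarith

theorem mem_hpath {y a c : ℝ} (hac : a ≤ c) {w : ℝ × ℝ} (h : w ∈ range (hpath y a c)) :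
    w.2 = y ∧ a ≤ w.1 ∧ w.1 ≤ c := by
  obtain ⟨t, rfl⟩ := h
  have h0 := t.2.1
  have h1 := t.2.2
  refine ⟨rfl, ?_, ?_⟩
  · show a ≤ a + t * (c - a)
    nlinarith
  · show a + t * (c - a) ≤ c
    nlinarith

/-- the final part of a path, backwards -/
noncomputable def back {a b : ℝ × ℝ} (g : Path a b) (t0 : I) : Path b (g t0) where
  toFun t := g ⟨1 - t * (1 - t0), by
    have h0 := t.2.1
    have h1 := t.2.2
    have k0 := t0.2.1
    have k1 := t0.2.2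
    constructor <;> nlinarith⟩
  continuous_toFun := by fun_prop
  source' := by simp
  target' := by simp

theorem mem_back {a b : ℝ × ℝ} {g : Path a b} {t0 : I} (ht0 : t0 ≠ 0) {w : ℝ × ℝ}
    (h : w ∈ range (back g t0)) : ∃ s, s ≠ 0 ∧ g s = w := by
  obtain ⟨t, rfl⟩ := h
  refine ⟨⟨1 - t * (1 - t0), _⟩, ?_, rfl⟩
  intro h
  have h2 : (1 : ℝ) - t * (1 - t0) = 0 := congrArg Subtype.val h
  have h0 := t.2.1
  have h1 := t.2.2
  have k0 : (0 : ℝ) < t0 := lt_of_le_of_ne t0.2.1 (fun h => ht0 (Subtype.ext h.symm))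
  have k1 := t0.2.2
  nlinarith

theorem bound {a b : ℝ × ℝ} (g : Path a b) : ∃ K : ℝ, 0 ≤ K ∧ ∀ t, |(g t).1| ≤ K ∧ |(g t).2| ≤ K := by
  obtain ⟨K, hK⟩ := (isCompact_range g.continuous).isBounded.exists_norm_le
  refine ⟨K, (norm_nonneg _).trans (hK (g 0) ⟨0, rfl⟩), fun t => ?_⟩
  have := hK (g t) ⟨t, rfl⟩
  rw [Prod.norm_def, Real.norm_eq_abs, Real.norm_eq_abs] at this
  exact ⟨(le_max_left _ _).trans this, (le_max_right _ _).trans this⟩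

theorem half {ρ₁ ρ₂ ρ₃ ρ : ℝ} (h12 : ρ₁ < ρ₂) (h23 : ρ₂ < ρ₃) {b c : ℝ × ℝ}
    (e2 : Path ((ρ₂, 0) : ℝ × ℝ) b) (g : Path ((ρ, 0) : ℝ × ℝ) b)
    (f1 : Path ((ρ₁, 0) : ℝ × ℝ) c) (f3 : Path ((ρ₃, 0) : ℝ × ℝ) c)
    (pe2 : ∀ t, t ≠ 0 → 0 < (e2 t).2) (pg : ∀ t, t ≠ 0 → 0 < (g t).2)
    (pf1 : ∀ t, t ≠ 0 → 0 < (f1 t).2) (pf3 : ∀ t, t ≠ 0 → 0 < (f3 t).2) (t0 : I) (ht0 : t0 ≠ 0)
    (m1 : ∀ t, (f1 t).2 ≤ (g t0).2) (m3 : ∀ t, (f3 t).2 ≤ (g t0).2)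
    (d1 : ∀ s t, e2 s ≠ f1 t) (d3 : ∀ s t, e2 s ≠ f3 t)
    (g1 : ∀ s t, g s = f1 t → s = 0) (g3 : ∀ s t, g s = f3 t → s = 0) : False := by
  obtain ⟨K2, hK2, b2⟩ := bound e2
  obtain ⟨Kg, hKg, bg⟩ := bound g
  obtain ⟨K1, hK1, b1⟩ := bound f1
  obtain ⟨K3, hK3, b3⟩ := bound f3
  set K : ℝ := K2 + Kg + K1 + K3 with hK
  have q2 : ∀ t, t = 0 → e2 t = (ρ₂, 0) := fun t h => by rw [h, e2.source]
  have q1 : ∀ t, t = 0 → f1 t = (ρ₁, 0) := fun t h => by rw [h, f1.source]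
  have q3 : ∀ t, t = 0 → f3 t = (ρ₃, 0) := fun t h => by rw [h, f3.source]
  have n2 : ∀ t, 0 ≤ (e2 t).2 := fun t => by
    by_cases h : t = 0
    · rw [q2 t h]
    · exact (pe2 t h).le
  have n1 : ∀ t, 0 ≤ (f1 t).2 := fun t => by
    by_cases h : t = 0
    · rw [q1 t h]
    · exact (pf1 t h).le
  have n3 : ∀ t, 0 ≤ (f3 t).2 := fun t => by
    by_cases h : t = 0
    · rw [q3 t h]
    · exact (pf3 t h).le
  have r1 : |ρ₁| ≤ K1 := by simpa using (b1 0).1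
  have r2 : |ρ₂| ≤ K2 := by simpa using (b2 0).1
  have r3 : |ρ₃| ≤ K3 := by simpa using (b3 0).1
  have hz := bg t0
  have hzK : (g t0).2 ≤ K := by
    have := (abs_le.1 hz.2).2
    linarith
  have hMρ1 : -K ≤ ρ₁ := by linarith [(abs_le.1 r1).1]
  have hMρ3 : ρ₃ ≤ K := by linarith [(abs_le.1 r3).2]
  set A := ((vpath ρ₂ (-1) 0).trans e2).trans ((back g t0).trans (vpath (g t0).1 (g t0).2 K))
    with hA
  set B := ((hpath 0 (-K) ρ₁).trans f1).trans (f3.symm.trans (hpath 0 ρ₃ K)) with hB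
  have rA : range A = (range (vpath ρ₂ (-1) 0) ∪ range e2) ∪
      (range (back g t0) ∪ range (vpath (g t0).1 (g t0).2 K)) := by
    rw [hA, Path.trans_range, Path.trans_range, Path.trans_range]
  have rB : range B = (range (hpath 0 (-K) ρ₁) ∪ range f1) ∪
      (range f3 ∪ range (hpath 0 ρ₃ K)) := by
    rw [hB, Path.trans_range, Path.trans_range, Path.trans_range, Path.symm_range]
  have bA : ∀ w ∈ range A, |w.1| ≤ K ∧ -1 ≤ w.2 ∧ w.2 ≤ K := by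
    intro w hw
    rw [rA] at hw
    rcases hw with (hw | ⟨t, rfl⟩) | (hw | hw)
    · obtain ⟨h1, h2, h3⟩ := mem_vpath (by norm_num) hw
      rw [h1]
      exact ⟨by linarith, h2, by linarith⟩
    · exact ⟨by linarith [(b2 t).1], by linarith [n2 t], by linarith [(abs_le.1 (b2 t).2).2]⟩
    · obtain ⟨s, hs, rfl⟩ := mem_back ht0 hw
      exact ⟨by linarith [(bg s).1], by linarith [pg s hs], by linarith [(abs_le.1 (bg s).2).2]⟩
    · obtain ⟨h1, h2, h3⟩ := mem_vpath hzK hw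
      rw [h1]
      exact ⟨by linarith [hz.1], by linarith [pg t0 ht0], h3⟩
  have bB : ∀ w ∈ range B, |w.1| ≤ K ∧ -1 ≤ w.2 ∧ w.2 ≤ K := by
    intro w hw
    rw [rB] at hw
    rcases hw with (hw | ⟨t, rfl⟩) | (⟨t, rfl⟩ | hw)
    · obtain ⟨h1, h2, h3⟩ := mem_hpath hMρ1 hw
      rw [h1]
      refine ⟨abs_le.2 ⟨h2, ?_⟩, by norm_num, by linarith⟩
      linarith [(abs_le.1 r1).2]
    · exact ⟨by linarith [(b1 t).1], by linarith [n1 t], by linarith [(abs_le.1 (b1 t).2).2]⟩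
    · exact ⟨by linarith [(b3 t).1], by linarith [n3 t], by linarith [(abs_le.1 (b3 t).2).2]⟩
    · obtain ⟨h1, h2, h3⟩ := mem_hpath hMρ3 hw
      rw [h1]
      refine ⟨abs_le.2 ⟨?_, h3⟩, by norm_num, by linarith⟩
      linarith [(abs_le.1 r3).1]
  obtain ⟨w, hwA, hwB⟩ := two_paths A B (fun t => bA _ ⟨t, rfl⟩) (fun t => bB _ ⟨t, rfl⟩) rfl rfl
    rfl rfl
  rw [rA] at hwA
  rw [rB] at hwB
  have z1 : ∀ t, (f1 t).2 = 0 → f1 t = (ρ₁, 0) := fun t h => q1 t (by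
    by_contra h'
    exact absurd h (pf1 t h').ne')
  have z2 : ∀ t, (e2 t).2 = 0 → e2 t = (ρ₂, 0) := fun t h => q2 t (by
    by_contra h'
    exact absurd h (pe2 t h').ne')
  have z3 : ∀ t, (f3 t).2 = 0 → f3 t = (ρ₃, 0) := fun t h => q3 t (by
    by_contra h'
    exact absurd h (pf3 t h').ne')
  rcases hwA with (hwA | ⟨s, rfl⟩) | (hwA | hwA)
  · obtain ⟨a1, a2, a3⟩ := mem_vpath (by norm_num) hwA
    rcases hwB with (hwB | ⟨t, rfl⟩) | (⟨t, rfl⟩ | hwB)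
    · obtain ⟨c1, c2, c3⟩ := mem_hpath hMρ1 hwB
      linarith
    · have := z1 t (le_antisymm a3 (n1 t))
      rw [this] at a1
      exact absurd a1 h12.ne
    · have := z3 t (le_antisymm a3 (n3 t))
      rw [this] at a1
      exact absurd a1 h23.ne'
    · obtain ⟨c1, c2, c3⟩ := mem_hpath hMρ3 hwB
      linarith
  · rcases hwB with (hwB | ⟨t, ht⟩) | (⟨t, ht⟩ | hwB)
    · obtain ⟨c1, c2, c3⟩ := mem_hpath hMρ1 hwB
      have := z2 s c1
      rw [this] at c3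
      exact absurd c3 (not_le.2 h12)
    · exact d1 s t ht.symm
    · exact d3 s t ht.symm
    · obtain ⟨c1, c2, c3⟩ := mem_hpath hMρ3 hwB
      have := z2 s c1
      rw [this] at c2
      exact absurd c2 (not_le.2 h23)
  · obtain ⟨s, hs, rfl⟩ := mem_back ht0 hwA
    rcases hwB with (hwB | ⟨t, ht⟩) | (⟨t, ht⟩ | hwB)
    · obtain ⟨c1, c2, c3⟩ := mem_hpath hMρ1 hwB
      exact absurd c1 (pg s hs).ne'
    · exact hs (g1 s t ht.symm)
    · exact hs (g3 s t ht.symm)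
    · obtain ⟨c1, c2, c3⟩ := mem_hpath hMρ3 hwB
      exact absurd c1 (pg s hs).ne'
  · obtain ⟨a1, a2, a3⟩ := mem_vpath hzK hwA
    have hp := pg t0 ht0
    rcases hwB with (hwB | ⟨t, rfl⟩) | (⟨t, rfl⟩ | hwB)
    · obtain ⟨c1, c2, c3⟩ := mem_hpath hMρ1 hwB
      linarith
    · have e : g t0 = f1 t := Prod.ext a1.symm (le_antisymm a2 (m1 t))
      exact ht0 (g1 t0 t e)
    · have e : g t0 = f3 t := Prod.ext a1.symm (le_antisymm a2 (m3 t))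
      exact ht0 (g3 t0 t e)
    · obtain ⟨c1, c2, c3⟩ := mem_hpath hMρ3 hwB
      linarith

/-- Two tripods with the same three feet on the boundary of the upper half-plane: some two legs
with different feet meet. -/
theorem tripod {ρ₁ ρ₂ ρ₃ : ℝ} (h12 : ρ₁ < ρ₂) (h23 : ρ₂ < ρ₃) {b c : ℝ × ℝ}
    (e1 : Path ((ρ₁, 0) : ℝ × ℝ) b) (e2 : Path ((ρ₂, 0) : ℝ × ℝ) b)
    (e3 : Path ((ρ₃, 0) : ℝ × ℝ) b) (f1 : Path ((ρ₁, 0) : ℝ × ℝ) c)
    (f2 : Path ((ρ₂, 0) : ℝ × ℝ) c) (f3 : Path ((ρ₃, 0) : ℝ × ℝ) c)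
    (pe1 : ∀ t, t ≠ 0 → 0 < (e1 t).2) (pe2 : ∀ t, t ≠ 0 → 0 < (e2 t).2)
    (pe3 : ∀ t, t ≠ 0 → 0 < (e3 t).2) (pf1 : ∀ t, t ≠ 0 → 0 < (f1 t).2)
    (pf2 : ∀ t, t ≠ 0 → 0 < (f2 t).2) (pf3 : ∀ t, t ≠ 0 → 0 < (f3 t).2)
    (adj1 : ∀ s t, e1 s = f1 t → s = 0 ∧ t = 0) (adj3 : ∀ s t, e3 s = f3 t → s = 0 ∧ t = 0) :
    (∃ s t, e1 s = f2 t) ∨ (∃ s t, e1 s = f3 t) ∨ (∃ s t, e2 s = f1 t) ∨ (∃ s t, e2 s = f3 t) ∨
      (∃ s t, e3 s = f1 t) ∨ (∃ s t, e3 s = f2 t) := by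
  by_contra hcon
  push Not at hcon
  obtain ⟨c12, c13, c21, c23, c31, c32⟩ := hcon
  have mx : ∀ {a b : ℝ × ℝ} (g : Path a b), ∃ t0, ∀ t, (g t).2 ≤ (g t0).2 := by
    intro a b g
    obtain ⟨t0, -, h⟩ := isCompact_univ.exists_isMaxOn (Set.univ_nonempty (α := I))
      (f := fun t => (g t).2) (by fun_prop)
    exact ⟨t0, fun t => h (mem_univ t)⟩
  obtain ⟨a1, ha1⟩ := mx e1
  obtain ⟨a3, ha3⟩ := mx e3
  obtain ⟨k1, hk1⟩ := mx f1
  obtain ⟨k3, hk3⟩ := mx f3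
  have nz : ∀ {ρ : ℝ} {b : ℝ × ℝ} (g : Path ((ρ, 0) : ℝ × ℝ) b) (t0 : I),
      (∀ t, t ≠ 0 → 0 < (g t).2) → (∀ t, (g t).2 ≤ (g t0).2) → t0 ≠ 0 := by
    intro ρ b g t0 h1 h2 h3
    have h4 := h1 1 one_ne_zero
    have h5 := h2 1
    rw [h3, g.source] at h5
    exact absurd h4 (not_lt.2 h5)
  by_cases hE : max (f1 k1).2 (f3 k3).2 ≤ max (e1 a1).2 (e3 a3).2
  · rcases le_total (e1 a1).2 (e3 a3).2 with h | h
    · rw [max_eq_right h] at hE
      exact half h12 h23 e2 e3 f1 f3 pe2 pe3 pf1 pf3 a3 (nz e3 a3 pe3 ha3)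
        (fun t => (hk1 t).trans ((le_max_left _ _).trans hE))
        (fun t => (hk3 t).trans ((le_max_right _ _).trans hE)) c21 c23
        (fun s t h' => absurd h' (c31 s t)) (fun s t h' => (adj3 s t h').1)
    · rw [max_eq_left h] at hE
      exact half h12 h23 e2 e1 f1 f3 pe2 pe1 pf1 pf3 a1 (nz e1 a1 pe1 ha1)
        (fun t => (hk1 t).trans ((le_max_left _ _).trans hE))
        (fun t => (hk3 t).trans ((le_max_right _ _).trans hE)) c21 c23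
        (fun s t h' => (adj1 s t h').1) (fun s t h' => absurd h' (c13 s t))
  · have hE := (not_le.1 hE).le
    rcases le_total (f1 k1).2 (f3 k3).2 with h | h
    · rw [max_eq_right h] at hE
      exact half h12 h23 f2 f3 e1 e3 pf2 pf3 pe1 pe3 k3 (nz f3 k3 pf3 hk3)
        (fun t => (ha1 t).trans ((le_max_left _ _).trans hE))
        (fun t => (ha3 t).trans ((le_max_right _ _).trans hE))
        (fun s t h' => c12 t s h'.symm) (fun s t h' => c32 t s h'.symm)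
        (fun s t h' => absurd h'.symm (c13 t s)) (fun s t h' => (adj3 t s h'.symm).2)
    · rw [max_eq_left h] at hE
      exact half h12 h23 f2 f1 e1 e3 pf2 pf1 pe1 pe3 k1 (nz f1 k1 pf1 hk1)
        (fun t => (ha1 t).trans ((le_max_left _ _).trans hE))
        (fun t => (ha3 t).trans ((le_max_right _ _).trans hE))
        (fun s t h' => c12 t s h'.symm) (fun s t h' => c32 t s h'.symm)
        (fun s t h' => (adj1 t s h'.symm).2) (fun s t h' => absurd h'.symm (c31 t s))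

end Vale.Agent.P040
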