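import Mathlib
import Vale.Agent.P371.Brouwer

/-! P040: a path from bottom to top and a path from left to right in a rectangle meet. -/

open Set Complex

namespace Vale.Agent.P040

theorem two_paths {M T : ℝ} {a b c d : ℝ × ℝ} (p : Path a b) (q : Path c d)
    (hp : ∀ t, |(p t).1| ≤ M ∧ -1 ≤ (p t).2 ∧ (p t).2 ≤ T)
    (hq : ∀ t, |(q t).1| ≤ M ∧ -1 ≤ (q t).2 ∧ (q t).2 ≤ T) (ha : a.2 = -1) (hb : b.2 = T)
    (hc : c.1 = -M) (hd : d.1 = M) : (Set.range p ∩ Set.range q).Nonempty := by
  by_contra hcon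
  have hne : ∀ s t, q s ≠ p t := fun s t h => hcon ⟨p t, ⟨t, rfl⟩, ⟨s, h⟩⟩
  have he : ∀ x y : ℝ, q.extend x ≠ p.extend y := fun x y => hne _ _
  have hpe : ∀ y, |(p.extend y).1| ≤ M ∧ -1 ≤ (p.extend y).2 ∧ (p.extend y).2 ≤ T :=
    fun y => hp _
  have hqe : ∀ y, |(q.extend y).1| ≤ M ∧ -1 ≤ (q.extend y).2 ∧ (q.extend y).2 ≤ T :=
    fun y => hq _
  have cp : Continuous p.extend := p.continuous_extend
  have cq : Continuous q.extend := q.continuous_extend
  set N : ℂ → ℝ := fun z => max |(p.extend z.im).1 - (q.extend z.re).1|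
    |(q.extend z.re).2 - (p.extend z.im).2| with hN
  have hN0 : ∀ z, 0 < N z := by
    intro z
    by_contra h
    have h0 : N z ≤ 0 := not_lt.1 h
    have h1 : |(p.extend z.im).1 - (q.extend z.re).1| ≤ 0 := (le_max_left _ _).trans h0
    have h2 : |(q.extend z.re).2 - (p.extend z.im).2| ≤ 0 := (le_max_right _ _).trans h0
    have h3 := abs_nonpos_iff.1 h1
    have h4 := abs_nonpos_iff.1 h2
    exact he z.re z.im (Prod.ext (by linarith) (by linarith))
  have cN : Continuous N := by
    have c1 : Continuous fun z : ℂ => p.extend z.im := cp.comp Complex.continuous_im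
    have c2 : Continuous fun z : ℂ => q.extend z.re := cq.comp Complex.continuous_re
    exact ((c1.fst.sub c2.fst).abs).max ((c2.snd.sub c1.snd).abs)
  set F1 : ℂ → ℝ := fun z => ((p.extend z.im).1 - (q.extend z.re).1) / N z with hF1
  set F2 : ℂ → ℝ := fun z => ((q.extend z.re).2 - (p.extend z.im).2) / N z with hF2
  have cF1 : Continuous F1 := by
    have c1 : Continuous fun z : ℂ => p.extend z.im := cp.comp Complex.continuous_im
    have c2 : Continuous fun z : ℂ => q.extend z.re := cq.comp Complex.continuous_re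
    exact (c1.fst.sub c2.fst).div cN fun z => (hN0 z).ne'
  have cF2 : Continuous F2 := by
    have c1 : Continuous fun z : ℂ => p.extend z.im := cp.comp Complex.continuous_im
    have c2 : Continuous fun z : ℂ => q.extend z.re := cq.comp Complex.continuous_re
    exact (c2.snd.sub c1.snd).div cN fun z => (hN0 z).ne'
  have b1 : ∀ z, |F1 z| ≤ 1 := by
    intro z
    rw [hF1]
    simp only
    rw [abs_div, abs_of_pos (hN0 z), div_le_one (hN0 z)]
    exact le_max_left _ _
  have b2 : ∀ z, |F2 z| ≤ 1 := by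
    intro z
    rw [hF2]
    simp only
    rw [abs_div, abs_of_pos (hN0 z), div_le_one (hN0 z)]
    exact le_max_right _ _
  have b3 : ∀ z, |F1 z| = 1 ∨ |F2 z| = 1 := by
    intro z
    rcases max_choice |(p.extend z.im).1 - (q.extend z.re).1|
      |(q.extend z.re).2 - (p.extend z.im).2| with h | h
    · left
      rw [hF1]
      simp only
      rw [abs_div, abs_of_pos (hN0 z), div_eq_one_iff_eq (hN0 z).ne']
      exact h.symm
    · right
      rw [hF2]
      simp only
      rw [abs_div, abs_of_pos (hN0 z), div_eq_one_iff_eq (hN0 z).ne']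
      exact h.symm
  set f : ℂ → ℂ := fun z => ((((F1 z + 1) / 2 : ℝ) : ℂ) + (((F2 z + 1) / 2 : ℝ) : ℂ) * I) with hf
  have cf : Continuous f := by
    have h1 : Continuous fun z => (((F1 z + 1) / 2 : ℝ) : ℂ) :=
      Complex.continuous_ofReal.comp ((cF1.add continuous_const).div_const 2)
    have h2 : Continuous fun z => (((F2 z + 1) / 2 : ℝ) : ℂ) :=
      Complex.continuous_ofReal.comp ((cF2.add continuous_const).div_const 2)
    exact h1.add (h2.mul continuous_const)
  have fre : ∀ z, (f z).re = (F1 z + 1) / 2 := fun z => by simp [hf]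
  have fim : ∀ z, (f z).im = (F2 z + 1) / 2 := fun z => by simp [hf]
  set K : Set ℂ := Icc (0 : ℝ) 1 ×ℂ Icc (0 : ℝ) 1 with hK
  have hKc : IsCompact K := isCompact_Icc.reProdIm isCompact_Icc
  have hKv : Convex ℝ K := by
    intro x hx y hy u v hu hv huv
    rw [hK, Complex.mem_reProdIm] at hx hy ⊢
    have h1 := (convex_Icc (0 : ℝ) 1) hx.1 hy.1 hu hv huv
    have h2 := (convex_Icc (0 : ℝ) 1) hx.2 hy.2 hu hv huv
    have e1 : (u • x + v • y).re = u • x.re + v • y.re := by simp
    have e2 : (u • x + v • y).im = u • x.im + v • y.im := by simp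
    rw [e1, e2]
    exact ⟨h1, h2⟩
  have hKn : K.Nonempty := ⟨0, by rw [hK, Complex.mem_reProdIm]; simp⟩
  have hmaps : MapsTo f K K := by
    intro z _
    rw [hK, Complex.mem_reProdIm, fre, fim]
    have h1 := abs_le.1 (b1 z)
    have h2 := abs_le.1 (b2 z)
    refine ⟨⟨?_, ?_⟩, ⟨?_, ?_⟩⟩ <;> linarith
  obtain ⟨z, hz, hfz⟩ := Vale.Agent.P371.brouwer hKc hKv hKn cf.continuousOn hmaps
  have e1 : z.re = (F1 z + 1) / 2 := by rw [← fre, hfz]
  have e2 : z.im = (F2 z + 1) / 2 := by rw [← fim, hfz]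
  have sgn1 : ∀ x : ℝ, 0 ≤ (p.extend z.im).1 - (q.extend z.re).1 → 0 ≤ F1 z := fun _ h =>
    div_nonneg h (hN0 z).le
  rcases b3 z with h | h
  · rcases eq_or_eq_neg_of_abs_eq h with h1 | h1
    · have hr : z.re = 1 := by rw [e1, h1]; norm_num
      have h2 : (q.extend z.re).1 = M := by rw [hr, q.extend_one, hd]
      have h3 := (abs_le.1 (hpe z.im).1).2
      have h4 : F1 z ≤ 0 := div_nonpos_of_nonpos_of_nonneg (by rw [h2]; linarith) (hN0 z).le
      linarith
    · have hr : z.re = 0 := by rw [e1, h1]; norm_num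
      have h2 : (q.extend z.re).1 = -M := by rw [hr, q.extend_zero, hc]
      have h3 := (abs_le.1 (hpe z.im).1).1
      have h4 : 0 ≤ F1 z := div_nonneg (by rw [h2]; linarith) (hN0 z).le
      linarith
  · rcases eq_or_eq_neg_of_abs_eq h with h1 | h1
    · have hr : z.im = 1 := by rw [e2, h1]; norm_num
      have h2 : (p.extend z.im).2 = T := by rw [hr, p.extend_one, hb]
      have h3 := (hqe z.re).2.2
      have h4 : F2 z ≤ 0 := div_nonpos_of_nonpos_of_nonneg (by rw [h2]; linarith) (hN0 z).le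
      linarith
    · have hr : z.im = 0 := by rw [e2, h1]; norm_num
      have h2 : (p.extend z.im).2 = -1 := by rw [hr, p.extend_zero, ha]
      have h3 := (hqe z.re).2.1
      have h4 : 0 ≤ F2 z := div_nonneg (by rw [h2]; linarith) (hN0 z).le
      linarith

end Vale.Agent.P040
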